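import Vale.Agent.P223C.Raw
import Vale.Agent.P210L.Lev

/-!
# P223C: the neck for a given weight and the calibration bound
-/

open MeasureTheory Filter Topology Set
open scoped ContDiff
open Vale.Agent.P366M Vale.Agent.P366M.Gr Vale.Agent.P366M.Y.C
open Vale.Agent.P210G
open Vale.Agent.P210L (Vf)

noncomputable section

namespace Vale.Agent.P223C

variable {n : ℕ} {M : Type} [Mf0 n M] {g : Fld n M} {f h u B ρ E : M → ℝ}
  {Np Nm Bp Bm K₀ K O : Set M} {θ : ℝ → ℝ} {S : ℝ}

/-- **calibration** -/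
theorem calib (hg : Met g) (hf : Smooth f) (hu : Smooth u) (hB : Smooth B) (hρ : Smooth ρ)
    (hE : Continuous E) (hθ : ContDiff ℝ ∞ θ) (hK : IsCompact K) (ρ0 : ∀ x, 0 ≤ ρ x)
    (b1 : ∀ x, |θ (u x) - B x| ≤ 1) (off : ∀ x ∉ K, θ (u x) = B x)
    (bd : ∀ x ∈ K, ρ x * gn g B x + gn g ρ x + ρ x * ((B x - θ (u x)) * hw g f u x) ≤ E x) :
    ∫ x in K, Real.exp (f x) * (ρ x * (deriv θ (u x) * dn g u u x)) ∂vol g ≤
      ∫ x in K, Real.exp (f x) * E x ∂vol g := by
  have := hg.locFin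
  have sd : Smooth fun x => θ (u x) - B x := CD.sub (hθ.compM hu) hB
  have sφ : Smooth fun x => ρ x * (θ (u x) - B x) := CD.mul hρ sd
  have z : ∀ x ∉ K, ρ x * (θ (u x) - B x) = 0 := fun x q => by rw [off x q, sub_self, mul_zero]
  have k := test_id hg hf.one hu sφ.llip (HasCompactSupport.intro hK z)
  have c1 : Continuous fun x => Real.exp (f x) * (ρ x * (θ (u x) - B x) * hw g f u x) :=
    hf.cont.rexp.mul (sφ.cont.mul (sm_hw hg hf hu).cont)
  have c2 : Continuous fun x => Real.exp (f x) * dn g u (fun x => ρ x * (θ (u x) - B x)) x :=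
    hf.cont.rexp.mul (sm_dn hg hu sφ).cont
  have c3 : Continuous fun x => Real.exp (f x) * E x := hf.cont.rexp.mul hE
  rw [← setIntegral_eq_integral_of_forall_compl_eq_zero (s := K) fun x q => by simp [z x q],
    ← setIntegral_eq_integral_of_forall_compl_eq_zero (s := K) (f := fun x => Real.exp (f x) *
      dn g u (fun x => ρ x * (θ (u x) - B x)) x) fun x q => by
        rw [dn_lin (s := 0) (t := 0) (w := u) (ζ := u) fun i => by
          rw [pd_zero_of_ev (eventually_of_mem (hK.isClosed.isOpen_compl.mem_nhds q) z)]; ring]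
        ring, eq_neg_iff_add_eq_zero, ← integral_add (c1.continuousOn.integrableOn_compact hK)
      (c2.continuousOn.integrableOn_compact hK)] at k
  refine le_of_le_of_eq ?_ ((integral_add (c3.continuousOn.integrableOn_compact hK)
    ((c1.add c2).continuousOn.integrableOn_compact hK)).trans ((congrArg _ k).trans (add_zero _)))
  refine setIntegral_mono_on ((hf.cont.rexp.mul (hρ.cont.mul (((hθ.continuous_deriv (by simp)).comp
    hu.cont).mul (sm_dn hg hu hu).cont))).continuousOn.integrableOn_compact hK)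
    ((c3.add (c1.add c2)).continuousOn.integrableOn_compact hK) hK.measurableSet fun x hx => ?_
  simp only [Pi.add_apply]
  rw [← mul_add, ← mul_add, dn_mul (hρ.diff x) (sd.diff x), dn_lin (v := fun x => θ (u x) - B x)
    (s := deriv θ (u x)) (t := -1) (w := u) (ζ := B) fun i => by
      rw [pd_sub ((Smooth.diff (hθ.compM hu)) x) (hB.diff x),
        pd_comp (hθ.differentiable (by simp) _).hasDerivAt (hu.diff x)]; ring]
  refine mul_le_mul_of_nonneg_left ?_ (Real.exp_pos _).le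
  have p1 := mul_le_mul_of_nonneg_left (abs_le.1 (abs_dn_le hg u B x)).2 (ρ0 x)
  have p2 : |(θ (u x) - B x) * dn g u ρ x| ≤ 1 * gn g ρ x := by
    rw [abs_mul]; exact mul_le_mul (b1 x) (abs_dn_le hg u ρ x) (abs_nonneg _) zero_le_one
  linarith [bd x hx, (abs_le.1 p2).1]

/-- a smooth step from `0` to `1` on `[-S, S]` -/
structure Stp (S : ℝ) (θ : ℝ → ℝ) : Prop where
  sm : ContDiff ℝ ∞ θ
  mono : Monotone θ
  lo : ∀ t ≤ -S, θ t = 0
  hi : ∀ t, S ≤ t → θ t = 1

theorem Stp.mem (h : Stp S θ) (t : ℝ) : 0 ≤ θ t ∧ θ t ≤ 1 :=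
  ⟨h.lo _ (min_le_right t _) ▸ h.mono (min_le_left _ _),
    h.hi _ (le_max_right t _) ▸ h.mono (le_max_left _ _)⟩

theorem Stp.der (h : Stp S θ) {t : ℝ} (k : S < |t|) : deriv θ t = 0 := by
  rcases lt_abs.1 k with q | q
  · rw [EventuallyEq.deriv_eq ((eventually_gt_nhds q).mono fun s p => h.hi s p.le), deriv_const]
  · rw [EventuallyEq.deriv_eq ((eventually_lt_nhds (lt_neg.1 q)).mono fun s p => h.lo s p.le),
      deriv_const]

/-- the calibration bound along the family `u`, for the label `h` and the error `κ` -/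
def Cal {I : Type} (l : Filter I) (g : Fld n M) (f h : M → ℝ) (u : I → M → ℝ) (Bp Bm K : Set M)
    (κ : ℝ) : Prop := ∀ B ρ E : M → ℝ, Smooth B → Smooth ρ → Continuous E → (∀ x, 0 ≤ ρ x) →
  (∀ x, 0 ≤ B x ∧ B x ≤ 1) → (∀ x ∈ Bp, B x = 0) → (∀ x ∈ Bm, B x = 1) →
  (∀ x ∈ K, ∀ t ∈ Icc (0 : ℝ) 1, ρ x * gn g B x + gn g ρ x + ρ x * ((B x - t) * h x + κ) ≤ E x) →
  ∀ S θ, Stp S θ → ∀ ε > (0 : ℝ), ∀ᶠ i in l,
    ∫ x, Real.exp (f x) * (ρ x * deriv θ (u i x)) ∂vol (gb g 1 (u i)) ≤
      ∫ x in K, Real.exp (f x) * E x ∂vol g + ε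

/-- **the neck for the weight `f`** -/
theorem neckT (hn : 2 ≤ n) (hg : Met g) (hf : Smooth f) (op : IsOpen Np) (om : IsOpen Nm)
    (cp : IsClosed Bp) (cm : IsClosed Bm) (sp : Bp ⊆ Np) (sm : Bm ⊆ Nm) (hK₀ : IsCompact K₀)
    (hO : IsOpen O) (hK : IsCompact K) (k1 : K ⊆ O) (k2 : O ⊆ K₀) (cov : Kᶜ ⊆ Bp ∪ Bm) :
    ∃ A₀ > (0 : ℝ), ∀ A ≥ A₀, ∀ h, Smooth h → (∀ x, |h x| ≤ A) → (∀ x ∈ Np, h x = A) →
      (∀ x ∈ Nm, h x = -A) → ∀ κ > (0 : ℝ), ∃ b u c e, |b| ≤ κ ∧
        Vf (hyperfilter ℕ) g f (fun x => h x + b) u c e O K (2 * A) ∧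
        (∀ S, ∀ᶠ i in (hyperfilter ℕ : Filter ℕ), (∀ x ∈ Bp, u i x < -S) ∧ ∀ x ∈ Bm, S < u i x) ∧
        Cal (hyperfilter ℕ : Filter ℕ) g f h u Bp Bm K κ := by
  obtain ⟨A₀, A0, H⟩ := raw hn hg (CC.neg hf.cc_pd) op om cp cm sp sm hK₀
    ((compl_subset_compl.2 (k1.trans k2)).trans cov)
  refine ⟨A₀, A0, fun A hA h hh h0 h1 h2 κ κ0 => ?_⟩
  choose α α0 α1 w β d R using fun i : ℕ => H A hA h hh h0 h1 h2 0 (min 1 κ) (by positivity)
    (min_le_left _ _) (i + 1) (by positivity)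
  have eq : ∀ i, ∀ x ∈ O, hw g f (w i) x = h x + β i (w i x) := fun i x k => by
    rw [← hv_neg_df hg, ((R i).eq x (k2 k)).self_of_nhds]
  obtain ⟨t, b, hb, ht, F⟩ := P210L.exists_vf (κ := κ) (Λ := 2 * A) hg hf hh hO hK k1
    (L := fun i => i + 1) (fun i => (R i).smw) (fun i => (α0 i).le)
    (tendsto_atTop_add_const_right _ _ tendsto_natCast_atTop_atTop)
    (fun i => (α1 i).trans (min_le_right _ _))
    (fun i x k => by rw [← hv_neg_df hg]; exact (R i).bd x (k2 k))
    (fun i x k q => by rw [eq i x k, (R i).lin _ q.le]) fun i x q => by_contra fun k =>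
      (cov k).elim (fun p => ((R i).lo x p).not_gt (abs_lt.1 q).1)
        fun p => ((R i).hi x p).not_gt (abs_lt.1 q).2
  have le := Nat.hyperfilter_le_atTop
  have sep : ∀ S, ∀ᶠ i in (hyperfilter ℕ : Filter ℕ), (∀ x, w i x ≤ -(i + 1) → w i x - t i < -S) ∧
      ∀ x, i + 1 ≤ w i x → S < w i x - t i := fun S => le ((ht (S + 1)).mono fun i hi =>
    ⟨fun x k => by linarith [neg_abs_le (t i)], fun x k => by linarith [le_abs_self (t i)]⟩)
  refine ⟨b, _, _, _, hb, F, fun S => (sep S).mono fun i q =>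
    ⟨fun x k => q.1 x ((R i).lo x k), fun x k => q.2 x ((R i).hi x k)⟩,
    fun B ρ E sB sρ cE ρ0 B0 B1 B2 bd S θ T ε ε0 => ?_⟩
  have := hg.locFin
  have cd := T.sm.continuous_deriv (by simp)
  obtain ⟨C, C0, hC⟩ := P210Y.bd_cont hK (hf.cont.rexp.mul sρ.cont)
  obtain ⟨D, D0, hD⟩ := P210Y.bd_cont (isCompact_Icc (a := -S) (b := S)) cd
  have tv := ((ENNReal.tendsto_toReal ENNReal.zero_ne_top).comp (F.vol (S + 1))).const_mul (C * D)
  filter_upwards [sep S, F.cf S, tv.eventually (gt_mem_nhds (show _ < ε by simpa)),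
    (F.vol (S + 1)).eventually (gt_mem_nhds ENNReal.zero_lt_top)] with i q cf hv fin
  have su := F.smu i
  have cu := cd.comp su.cont
  have k := calib hg hf su sB sρ cE T.sm hK ρ0 (fun x => abs_le.2
    ⟨by linarith [(T.mem (w i x - t i)).1, (B0 x).2], by linarith [(T.mem (w i x - t i)).2, (B0 x).1]⟩)
    (fun x k => (cov k).elim (fun p => by rw [B1 x p, T.lo _ (q.1 x ((R i).lo x p)).le])
      fun p => by rw [B2 x p, T.hi _ (q.2 x ((R i).hi x p)).le]) fun x k => by
      refine le_trans (add_le_add_right (mul_le_mul_of_nonneg_left ?_ (ρ0 x)) _)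
        (bd x k _ (T.mem (w i x - t i)))
      rw [show hw g f (fun x => w i x - t i) x = _ from congrFun (An.hw_add g f (w i) (-t i)) x,
        eq i x (k1 k), mul_add]
      refine add_le_add_right ?_ _
      have i0 : (0 : ℝ) < i + 1 := by positivity
      have m := T.mem (w i x - t i)
      have m' := B0 x
      rcases le_total (w i x) (-(i + 1)) with p | p
      · rw [T.lo _ (q.1 x p).le]
        nlinarith [(R i).mono (p.trans (neg_nonpos.2 i0.le)), (R i).zero]
      rcases le_total (i + 1 : ℝ) (w i x) with p' | p'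
      · rw [T.hi _ (q.2 x p').le]
        nlinarith [(R i).mono (i0.le.trans p'), (R i).zero]
      have p3 : |α i * w i x| ≤ κ := by
        rw [abs_mul, abs_of_pos (α0 i)]
        exact (mul_le_mul_of_nonneg_left (abs_le.2 ⟨p, p'⟩) (α0 i).le).trans
          ((α1 i).trans (min_le_right _ _))
      rw [(R i).lin _ (abs_le.2 ⟨p, p'⟩)]
      obtain ⟨p4, p5⟩ := abs_le.1 p3
      nlinarith
  have mS : MeasurableSet {x | |w i x - t i| < S + 1} :=
    (isOpen_lt su.cont.abs continuous_const).measurableSet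
  rw [integral_g hg su, ← setIntegral_eq_integral_of_forall_compl_eq_zero (s := K) fun x k => by
    rw [T.der (not_le.1 fun p => k (cf x p))]; ring]
  have i1 := ((hf.cont.rexp.mul (sρ.cont.mul (cu.mul (sm_dn hg su su).cont))).continuousOn
    |>.integrableOn_compact (μ := vol g) hK)
  have i2 : IntegrableOn (indicator {x | |w i x - t i| < S + 1} fun _ => C * D) K (vol g) :=
    (integrableOn_const hK.measure_ne_top).indicator mS
  refine (setIntegral_mono_on (((hf.cont.rexp.mul (sρ.cont.mul cu)).mul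
    (sm_w hg su).cont).continuousOn.integrableOn_compact hK) (i1.add i2) hK.measurableSet
    fun x k => ?_).trans ((integral_add i1 i2).trans_le (add_le_add k (le_trans ?_ hv.le)))
  · simp only [Pi.add_apply, Pi.mul_apply, Function.comp, dn_self hg]
    by_cases p : |w i x - t i| ≤ S
    · have p1 := mul_le_mul (abs_le.1 (hC x k)).2 (abs_le.1 (hD _ (abs_le.1 p))).2 T.mono.deriv_nonneg C0
      have p2 := inv_le_one_of_one_le₀ (GbH.one_le_ww hg 1 (fun x => w i x - t i) x)
      have p3 := mul_nonneg (mul_nonneg (Real.exp_pos (f x)).le (ρ0 x))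
        (T.mono.deriv_nonneg (x := w i x - t i))
      rw [indicator_of_mem (s := {x | |w i x - t i| < S + 1}) (show _ < S + 1 by linarith)]
      simp only [Pi.mul_apply] at p1
      nlinarith
    · rw [T.der (not_le.1 p)]
      simpa using indicator_nonneg (fun _ _ => mul_nonneg C0 D0) x
  · rw [integral_indicator_const _ mS, smul_eq_mul, mul_comm]
    exact mul_le_mul_of_nonneg_left (ENNReal.toReal_mono fin.ne (Measure.restrict_le_self _))
      (mul_nonneg C0 D0)

end Vale.Agent.P223C
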