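import Vale.Agent.P223C.Raw
import Vale.Agent.P210H.Zl
import Vale.Agent.P223U.Defs

/-!
# P223C: the neck for a given weight, with a flat middle part (`NKT`)
-/

open Real Topology Set
open Filter hiding ker
open scoped ContDiff
open Vale.Agent.P366M Vale.Agent.P366M.Gr Vale.Agent.P366M.Y.C
open Vale.Agent.P210G Vale.Agent.P210U Vale.Agent.P223U
open Vale.Agent.P210E (K4)
open Vale.Agent.P210L (Vf)
open Vale.Agent.P366H (DD DD_ge)

noncomputable section

namespace Vale.Agent.P223C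

variable {n m : ℕ} {M : Type} [Mf0 n M] {g : Fld n M} {f h l : M → ℝ}
  {Np Nm Bp Bm K₀ K O : Set M} {G : Fin m → M → ℝ} {x : M}

/-- the neck for the weight `f`, with the sign clause -/
theorem neckS (hn : 2 ≤ n) (hg : Met g) (hf : Smooth f) (op : IsOpen Np) (om : IsOpen Nm)
    (cp : IsClosed Bp) (cm : IsClosed Bm) (sp : Bp ⊆ Np) (sm : Bm ⊆ Nm) (hK₀ : IsCompact K₀)
    (hO : IsOpen O) (hK : IsCompact K) (k1 : K ⊆ O) (k2 : O ⊆ K₀) (cov : Kᶜ ⊆ Bp ∪ Bm) :
    ∃ A₀ > (0 : ℝ), ∀ A ≥ A₀, ∀ h, Smooth h → (∀ x, |h x| ≤ A) → (∀ x ∈ Np, h x = A) →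
      (∀ x ∈ Nm, h x = -A) → ∀ κ > (0 : ℝ), ∃ b u c e, |b| ≤ κ ∧
        Vf (hyperfilter ℕ) g f (fun x => h x + b) u c e O K (2 * A) ∧
        ∀ S, ∀ᶠ i in (hyperfilter ℕ : Filter ℕ), (∀ x ∈ Bp, u i x < -S) ∧ (∀ x ∈ Bm, S < u i x) ∧
          ∀ x ∈ O, (-S ≤ u i x → h x - κ ≤ hw g f (u i) x) ∧
            (u i x ≤ S → hw g f (u i) x ≤ h x + κ) := by
  obtain ⟨A₀, A0, H⟩ := raw hn hg (CC.neg hf.cc_pd) op om cp cm sp sm hK₀
    ((compl_subset_compl.2 (k1.trans k2)).trans cov)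
  refine ⟨A₀, A0, fun A hA h hh h0 h1 h2 κ κ0 => ?_⟩
  choose α α0 α1 w β d R using fun i : ℕ => H A hA h hh h0 h1 h2 0 (min 1 κ) (by positivity)
    (min_le_left _ _) (i + 1) (by positivity)
  have eq : ∀ i, ∀ x ∈ O, hw g f (w i) x = h x + β i (w i x) := fun i x k => by
    rw [← hv_neg_df hg, ((R i).eq x (k2 k)).self_of_nhds]
  have α2 := fun i => (α1 i).trans (min_le_right _ _)
  obtain ⟨t, b, hb, ht, F⟩ := P210L.exists_vf (κ := κ) (Λ := 2 * A) hg hf hh hO hK k1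
    (L := fun i => i + 1) (fun i => (R i).smw) (fun i => (α0 i).le)
    (tendsto_atTop_add_const_right _ _ tendsto_natCast_atTop_atTop) α2
    (fun i x k => by rw [← hv_neg_df hg]; exact (R i).bd x (k2 k))
    (fun i x k q => by rw [eq i x k, (R i).lin _ q.le]) fun i x q => by_contra fun k =>
      (cov k).elim (fun p => ((R i).lo x p).not_gt (abs_lt.1 q).1)
        fun p => ((R i).hi x p).not_gt (abs_lt.1 q).2
  refine ⟨b, _, _, _, hb, F, fun S => Nat.hyperfilter_le_atTop ((ht (S + 1)).mono fun i hi => ?_)⟩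
  have t1 := neg_abs_le (t i)
  have t2 := le_abs_self (t i)
  have i0 : (0 : ℝ) < i + 1 := by positivity
  refine ⟨fun x k => by linarith [(R i).lo x k], fun x k => by linarith [(R i).hi x k], fun x k => ?_⟩
  rw [show hw g f (fun x => w i x - t i) x = _ from congrFun (An.hw_add g f (w i) (-t i)) x, eq i x k]
  have l1 := (R i).lin (i + 1) (abs_of_pos i0).le
  refine ⟨fun q => ?_, fun q => ?_⟩
  · linarith [(R i).mono (show -(i + 1 : ℝ) ≤ w i x by linarith), (R i).odd (i + 1), α2 i]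
  · linarith [(R i).mono (show w i x ≤ i + 1 by linarith), α2 i]

/-- a smooth negative part at the scale `l` -/
def np (l h : M → ℝ) (y : M) : ℝ := h y * smoothTransition (0 + 1 * -(l y * h y))

omit [Mf0 n M] in
theorem np_zero (l0 : 0 < l x) (k : 0 ≤ h x) : np l h x = 0 := by
  rw [np, st_zero (by nlinarith), mul_zero]

omit [Mf0 n M] in
theorem np_one (k : l x * h x ≤ -1) : np l h x = h x := by rw [np, st_one (by linarith), mul_one]

omit [Mf0 n M] in
theorem np_mem (l0 : 0 < l x) : -|h x| ≤ np l h x ∧ np l h x ≤ 0 := by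
  rcases le_total 0 (h x) with k | k
  · rw [np_zero l0 k]; exact ⟨neg_nonpos.2 (abs_nonneg _), le_rfl⟩
  · rw [abs_of_nonpos k, np]
    constructor <;> nlinarith [smoothTransition.nonneg (0 + 1 * -(l x * h x)),
      smoothTransition.le_one (0 + 1 * -(l x * h x))]

theorem sm_np (sl : Smooth l) (sh : Smooth h) : Smooth (np l h) :=
  CD.mul sh (sm_st (CD.neg (CD.mul sl sh)) 1 0)

theorem np_bd (hg : Met g) (sl : Smooth l) (sh : Smooth h) (l0 : ∀ x, 0 < l x) {C : ℝ} (C0 : 0 ≤ C)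
    (gl : gn g l x ≤ 1) (b : -C ≤ l x ^ 2 * (h x ^ 2 - 2 * gn g h x)) :
    -((1 + C) * (1 + DD) + 2 * DD) ≤ l x ^ 2 * (np l h x ^ 2 - 2 * gn g (np l h) x) := by
  have D := DD_ge
  have ct : ContinuousAt (fun y => l y * h y) x := (sl.cont.mul sh.cont).continuousAt
  have lx := l0 x
  rcases lt_or_ge (l x * h x) (-1) with p | p
  · rw [np_one p.le, gn_congr ((ct.eventually (gt_mem_nhds p)).mono fun y k => np_one k.le)]
    nlinarith
  rcases lt_or_ge 0 (h x) with q | q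
  · rw [np_zero lx q.le, gn_congr ((sh.cont.continuousAt.eventually (lt_mem_nhds q)).mono
      fun y k => np_zero (l0 y) k.le), gn_zero fun i => pd_const _ i x]
    nlinarith
  have s1 : Smooth fun y => -(l y * h y) := CD.neg (CD.mul sl sh)
  have g1 := P210H.gn_lin (u := np l h) hg fun i => (pd_mul (sh.diff x)
    ((sm_st s1 1 0).diff x) i).trans (congrArg (· + _) (mul_comm _ _))
  have g2 := gn_st g s1 zero_le_one 0 x
  have g3 := P210H.gn_lin (u := fun y => -(l y * h y)) (p := l) (q := h) (a := -h x) (b := -l x) hg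
    fun i => by rw [pd_neg, pd_mul (sl.diff x) (sh.diff x)]; ring
  rw [abs_neg, abs_neg, abs_of_nonpos q, abs_of_pos lx] at g3
  rw [abs_of_nonpos q, abs_of_nonneg (smoothTransition.nonneg _)] at g1
  have g0 := gn_nonneg g h x
  have g4 := mul_le_of_le_one_left g0 (smoothTransition.le_one (0 + 1 * -(l x * h x)))
  have g5 := mul_le_of_le_one_right (neg_nonneg.2 q) gl
  have g6 : gn g (np l h) x ≤ gn g h x + -h x * (DD * (-h x + l x * gn g h x)) := by
    have := mul_le_mul_of_nonneg_left (g2.trans (mul_le_mul_of_nonneg_left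
      (g3.trans (add_le_add_left g5 _)) (by positivity))) (neg_nonneg.2 q)
    linarith
  have t0 : 0 ≤ -(l x * h x) := by nlinarith
  have t1 : (l x * h x) ^ 2 ≤ 1 := by nlinarith
  have y0 : 0 ≤ l x ^ 2 * gn g h x := by positivity
  have y1 : 2 * (l x ^ 2 * gn g h x) ≤ 1 + C := by linarith
  have y2 := mul_le_of_le_one_left y0 (show -(l x * h x) ≤ 1 by linarith)
  have y3 := mul_le_mul_of_nonneg_left g6 (sq_nonneg (l x))
  have y4 := mul_le_mul_of_nonneg_left (show 2 * ((l x * h x) ^ 2 + -(l x * h x) *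
    (l x ^ 2 * gn g h x)) ≤ 2 + (1 + C) by linarith) (show 0 ≤ DD by linarith)
  nlinarith [mul_nonneg (sq_nonneg (l x)) (sq_nonneg (np l h x))]

/-- the band for an affine function of the radius -/
theorem band1 (m : ℕ) : ∃ C ≥ (0 : ℝ), ∀ {n : ℕ} {M : Type} [Mf0 n M] {g : Fld n M} {l : M → ℝ}
    {O : Set M} {G : Fin m → M → ℝ}, Met g → Smooth l → (∀ x, 0 < l x) → Rad O G →
    (∀ x ∈ K4 G O, gn g l x ≤ 1 ∧ ∀ i, l x * gn g (G i) x ≤ 1) → ∀ a β : ℝ, -1 ≤ a → 2 ≤ β → β ≤ 3 →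
    ∀ A > (0 : ℝ), ∃ h : M → ℝ, Smooth h ∧ (∀ x, |h x| ≤ A) ∧
      (∀ x, 4 / 5 ≤ a + β * nsq G x → h x = A) ∧ (∀ x ∈ O, |a + β * nsq G x| ≤ 7 / 10 → h x = -A) ∧
      ∀ x, -C ≤ l x ^ 2 * (h x ^ 2 - 2 * gn g h x) := by
  obtain ⟨C, C0, H⟩ := band 1
  refine ⟨C * (12 * m + 1) ^ 2, by positivity, ?_⟩
  intro n M _ g l O G hg sl l0 R b a β a1 β2 β3 A A0
  have s : Smooth fun x => a + β * nsq G x := CD.add cd_const (CD.mul cd_const (sm_nsq R.sm))
  have e : ∀ x, nsq (fun (_ : Fin 1) x => a + β * nsq G x) x = (a + β * nsq G x) ^ 2 := fun x => by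
    simp [nsq]
  have k : ∀ x, (a + β * nsq G x) ^ 2 ≤ 4 → nsq G x ≤ 4 := fun x q => by
    have := (abs_le_of_sq_le_sq' (q.trans_eq (by norm_num : (4 : ℝ) = 2 ^ 2)) two_pos.le).2
    nlinarith
  obtain ⟨h, h1, h2, h3, h4, h5⟩ := H (G := fun (_ : Fin 1) x => a + β * nsq G x)
    (ε := 12 * m + 1) hg sl l0 ⟨fun _ => s, R.opn, by
      convert R.cpt.inter_right (isClosed_le (s.cont.pow 2) (continuous_const (y := 4))) using 1
      simp only [e]
      exact subset_antisymm (fun x q => ⟨⟨q.1, k x q.2⟩, q.2⟩) fun x q => ⟨q.1.1, q.2⟩⟩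
    (by positivity) (fun x p q => by
      rw [e] at q
      obtain ⟨b1, b2⟩ := b x ⟨p, k x q⟩
      have g1 := gn_nsq hg R.sm (l0 x).le (k x q) b2
      have m0 : (0 : ℝ) ≤ m := Nat.cast_nonneg m
      refine ⟨by linarith, fun _ => ?_⟩
      rw [gn_of_pd (u' := nsq G) (s := β) fun i => by
        rw [pd_add (Smooth.diff cd_const x) (Smooth.diff (CD.mul cd_const (sm_nsq R.sm)) x), pd_const,
          pd_const_mul, zero_add], abs_of_pos (by linarith)]
      nlinarith) A A0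
  exact ⟨h, h1, h2, fun x q => h3 x (.inr (by rw [e]; nlinarith)),
    fun x p q => h4 x p (by rw [e, ← sq_abs]; nlinarith [abs_nonneg (a + β * nsq G x)]), h5⟩

/-- the band with a flat middle part -/
theorem flat (m : ℕ) : ∃ C ≥ (0 : ℝ), ∀ {n : ℕ} {M : Type} [Mf0 n M] {g : Fld n M} {l : M → ℝ}
    {O : Set M} {G : Fin m → M → ℝ}, Met g → Smooth l → (∀ x, 0 < l x) → Rad O G →
    (∀ x ∈ K4 G O, gn g l x ≤ 1 ∧ ∀ i, l x * gn g (G i) x ≤ 1) → ∀ A₀ > (0 : ℝ), ∃ A ≥ A₀,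
    ∃ h : M → ℝ, Smooth h ∧ (∀ x, |h x| ≤ A) ∧ (∀ x ∈ O, nsq G x < 7 / 15 → h x = A) ∧
      (∀ x, x ∉ O ∨ 13 / 20 < nsq G x → h x = -A) ∧ ∀ x ∈ O, nsq G x ≤ 1 →
        -C ≤ l x ^ 2 * (h x ^ 2 - 2 * gn g h x) ∧ (nsq G x ≤ 3 / 5 → 0 ≤ h x) ∧
          (1 / 2 ≤ nsq G x → h x ≤ 0) := by
  obtain ⟨C, C0, H⟩ := band1 m
  have D := DD_ge
  refine ⟨(1 + C) * (1 + DD) + 2 * DD, by positivity, ?_⟩
  intro n M _ g l O G hg sl l0 R b A₀ A0
  obtain ⟨L, -, hL⟩ := P210Y.bd_cont R.cpt (sl.cont.inv₀ fun x => (l0 x).ne')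
  refine ⟨max A₀ L, le_max_left _ _, ?_⟩
  have A1 := A0.trans_le (le_max_left A₀ L)
  have lA : ∀ x ∈ O, nsq G x ≤ 4 → l x * -max A₀ L ≤ -1 := fun x p q => by
    have := mul_le_mul_of_nonneg_left (((le_abs_self _).trans (hL x ⟨p, q⟩)).trans
      (le_max_right A₀ L)) (l0 x).le
    rw [Pi.inv_apply, mul_inv_cancel₀ (l0 x).ne'] at this
    linarith
  generalize max A₀ L = A at *
  obtain ⟨p, p1, p2, p3, p4, p5⟩ := H hg sl l0 R b (-7 / 10) 3 (by norm_num) (by norm_num) le_rfl A A1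
  obtain ⟨q, q1, q2, q3, q4, q5⟩ := H hg sl l0 R b (-1 / 2) 2 (by norm_num) le_rfl (by norm_num) A A1
  have n0 : ∀ x, 0 ≤ nsq G x := fun x => Finset.sum_nonneg fun _ _ => sq_nonneg _
  have q6 : Smooth fun x => -q x := CD.neg q1
  have z1 : ∀ x, 1 / 2 ≤ nsq G x → np l p x = 0 := fun x k =>
    np_zero (l0 x) (by rw [p3 x (by linarith)]; exact A1.le)
  have z2 : ∀ x ∈ O, nsq G x ≤ 3 / 5 → np l (fun x => -q x) x = 0 := fun x k k' => np_zero (l0 x)
    (by rw [q4 x k (abs_le.2 ⟨by linarith [n0 x], by linarith⟩), neg_neg]; exact A1.le)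
  have e : ∀ y ∈ O, 13 / 20 ≤ nsq G y → nsq G y ≤ 4 → np l (fun x => -q x) y - np l p y = -A :=
    fun y k k1 k2 => by
      have := q3 y (by linarith)
      rw [z1 y (by linarith), np_one (by rw [this]; exact lA y k k2), this, sub_zero]
  refine ⟨xt O G (fun x => np l (fun x => -q x) x - np l p x) (-A), R.sm_xt
    (CD.sub (sm_np sl q6) (sm_np sl p1)) fun y k k1 => e y k (by linarith), fun x => ?_,
    fun x k k' => ?_, fun x k => xt_eq e (k.imp_right le_of_lt), fun x k k' => ?_⟩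
  · unfold xt
    split_ifs
    · have a1 := np_mem (h := p) (l0 x)
      have a2 := np_mem (h := fun x => -q x) (l0 x)
      rw [abs_neg] at a2
      exact abs_le.2 ⟨by linarith [q2 x], by linarith [p2 x]⟩
    · rw [abs_neg, abs_of_pos A1]
  · have := p4 x k (abs_le.2 ⟨by linarith [n0 x], by linarith⟩)
    rw [(R.xt_in k (by linarith)).self_of_nhds, z2 x k (by linarith),
      np_one (by rw [this]; exact lA x k (by linarith)), this, zero_sub, neg_neg]
  have ev := R.xt_in (F := fun x => np l (fun x => -q x) x - np l p x) (c := -A) k (by linarith)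
  have gl := (b x ⟨k, by linarith⟩).1
  have gq : ∀ u : M → ℝ, gn g (fun x => -u x) x = gn g u x := fun u => by
    rw [gn_of_pd (u' := u) (s := -1) fun i => by rw [pd_neg]; ring, abs_neg, abs_one, one_mul]
  rw [gn_congr ev, ev.self_of_nhds]
  beta_reduce
  refine ⟨?_, fun r => by linarith [z2 x k r, (np_mem (h := p) (l0 x)).2],
    fun r => by linarith [z1 x r, (np_mem (h := fun x => -q x) (l0 x)).2]⟩
  rcases lt_or_ge (nsq G x) (3 / 5) with r | r
  · rw [gn_congr (u' := fun x => -np l p x) ((R.ev_in k r).mono fun y s => by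
      simp only [z2 y s.1 s.2.le, zero_sub]), gq, z2 x k r.le, zero_sub, neg_sq]
    exact np_bd hg sl p1 l0 C0 gl (p5 x)
  · rw [gn_congr (u' := np l fun x => -q x) ((R.cn.continuousAt.eventually (lt_mem_nhds
      (show 1 / 2 < nsq G x by linarith))).mono fun y s => by simp only [z1 y s.le, sub_zero]),
      z1 x (by linarith), sub_zero]
    exact np_bd hg sl q6 l0 C0 gl (by rw [gq, neg_sq]; exact q5 x)

/-- **NKT** -/
theorem nkt (hn : 2 ≤ n) (m : ℕ) : NKT n m := by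
  obtain ⟨C, C0, H⟩ := flat m
  have D := DD_ge
  refine ⟨C + 40 * DD, by positivity, fun M _ g l G O f hg sl l0 R b hf κ κ0 => ?_⟩
  have cK : IsCompact ({x ∈ O | nsq G x ≤ 2 / 3} ∩ {x | 9 / 20 ≤ nsq G x}) :=
    (R.cpt' (by norm_num)).inter_right (isClosed_le continuous_const R.cn)
  have oO : IsOpen {x ∈ O | 7 / 16 < nsq G x ∧ nsq G x < 11 / 16} :=
    R.opn.inter ((isOpen_lt continuous_const R.cn).inter (isOpen_lt R.cn continuous_const))
  have cov : ∀ x ∉ {x ∈ O | nsq G x ≤ 2 / 3} ∩ {x | 9 / 20 ≤ nsq G x},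
      (x ∈ O ∧ nsq G x ≤ 9 / 20) ∨ x ∉ O ∨ 2 / 3 ≤ nsq G x := fun x k => by
    by_contra a
    push Not at a
    exact k ⟨⟨a.2.1, a.2.2.le⟩, (a.1 a.2.1).le⟩
  obtain ⟨A₀, A0, N⟩ := neckS hn hg hf (R.opn_in (7 / 15)) (R.opn_out (r := 13 / 20) (by norm_num))
    (R.cpt' (r := 9 / 20) (by norm_num)).isClosed (R.cls_out (2 / 3))
    (fun x k => ⟨k.1, k.2.trans_lt (by norm_num)⟩)
    (fun x k => Or.imp_right (fun a => lt_of_lt_of_le (by norm_num) a) k) R.cpt oO cK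
    (fun x k => ⟨k.1.1, lt_of_lt_of_le (by norm_num) (show 9 / 20 ≤ nsq G x from k.2),
      k.1.2.trans_lt (by norm_num)⟩) (fun x k => ⟨k.1, by linarith [k.2.2]⟩) cov
  obtain ⟨A, hA, h, h1, h2, h3, h4, h5⟩ := H hg sl l0 R b A₀ A0
  have A1 := A0.trans_le hA
  obtain ⟨a, u, c, e, ha, F, hu⟩ := N A hA h h1 h2 (fun x k => h3 x k.1 k.2) h4
    (min κ (κ / (2 * A))) (by positivity)
  have eB : ∀ y ∈ O, 3 / 5 ≤ nsq G y → nsq G y ≤ 4 → smoothTransition (-5 + 10 * nsq G y) = 1 :=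
    fun y _ k _ => st_one (by linarith)
  have B0 : ∀ y ∈ O, nsq G y ≤ 1 / 2 →
      xt O G (fun y => smoothTransition (-5 + 10 * nsq G y)) 1 y = 0 := fun y k k' => by
    rw [(R.xt_in k (by linarith)).self_of_nhds, st_zero (by linarith)]
  refine ⟨_, u, c, e, _, _, xt O G (fun y => smoothTransition (-5 + 10 * nsq G y)) 1, F,
    fun x k k1 k2 => ?_, fun S => (hu S).mono fun i q x k => q.2.1 x
      (k.imp_right fun a => le_trans (by norm_num) a), fun S => (hu S).mono fun i q x k k' =>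
        q.1 x ⟨k, k'.trans (by norm_num)⟩, R.sm_xt (sm_st (sm_nsq R.sm) _ _)
      fun y k k' => eB y k (by linarith), fun x => ?_, fun x k => ?_,
    fun S => (hu S).mono fun i q x => ⟨fun k => (cov x k).imp
      (fun a => ⟨B0 x a.1 (by linarith [a.2]), q.1 x a⟩) fun a => ⟨xt_eq eB
        (a.imp_right fun a => le_trans (by norm_num) a), q.2.1 x a⟩, fun k => ?_⟩⟩
  · have a1 := (h5 x k (by linarith)).1
    have a2 : |h x * a| * 2 ≤ κ := by
      have := mul_le_mul (h2 x) (ha.trans (min_le_right _ _)) (abs_nonneg _) A1.le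
      rw [abs_mul, ← le_div_iff₀ two_pos]
      exact this.trans_eq (by field_simp)
    have a3 : -(C + 40 * DD) / l x ^ 2 ≤ h x ^ 2 - 2 * gn g h x := by
      rw [div_le_iff₀' (pow_pos (l0 x) 2)]; linarith
    rw [gn_of_pd_eq (v := h) fun i => by rw [pd_add (h1.diff x) (Smooth.diff cd_const x), pd_const, add_zero]]
    nlinarith [neg_abs_le (h x * a), sq_nonneg a]
  · unfold xt
    split_ifs
    · exact ⟨smoothTransition.nonneg _, smoothTransition.le_one _⟩
    · exact ⟨zero_le_one, le_rfl⟩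
  · rw [gn_congr (R.xt_in k.1.1 (by linarith [k.1.2]))]
    have a1 := hg.gn_sum_le Finset.univ (f := fun i y => G i y ^ 2) (x := x)
      fun i => ((R.sm i).diff x).pow 2
    have a2 : ∑ i, gn g (fun y => G i y ^ 2) x ≤ ∑ i, 4 * gn g (G i) x :=
      Finset.sum_le_sum fun i _ => by
        rw [gn_comp (φ := fun t => t ^ 2) (hasDerivAt_pow 2 _) ((R.sm i).diff x)]
        refine mul_le_mul_of_nonneg_right (abs_le.2 ?_) (gn_nonneg _ _ _)
        constructor <;> norm_num <;> nlinarith [nsq_ge G x i, k.1.2]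
    rw [← Finset.mul_sum] at a2
    have a3 : 0 ≤ ∑ i, gn g (G i) x := Finset.sum_nonneg fun i _ => gn_nonneg _ _ _
    have a4 := mul_le_mul_of_nonneg_left (a1.trans a2) (show 0 ≤ DD * 10 by positivity)
    have a5 := (gn_st g (sm_nsq R.sm) (show (0 : ℝ) ≤ 10 by norm_num) (-5) x).trans a4
    nlinarith
  obtain ⟨-, a1, a2⟩ := h5 x k.1.1 (by linarith [k.1.2])
  obtain ⟨s1, s2⟩ := q.2.2 x ⟨k.1.1, lt_of_lt_of_le (by norm_num) (show 9 / 20 ≤ nsq G x from k.2),
    k.1.2.trans_lt (by norm_num)⟩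
  have κ1 := min_le_left κ (κ / (2 * A))
  exact ⟨fun r s => by linarith [s1 r, a1 (not_lt.1 fun t => s.ne (xt_eq eB (.inr t.le)))],
    fun r s => by linarith [s2 r, a2 (not_lt.1 fun t => s.ne' (B0 x k.1.1 t.le))]⟩

end Vale.Agent.P223C
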