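import Vale.Agent.P210A.Round
import Vale.Agent.P210V.MixR
import Vale.Agent.P210U.Band

/-!
# P223C: the output of a round of stage 1 for distributions
-/

open Finset Real
open scoped ContDiff
open Vale.Agent.P366M Vale.Agent.P210G Vale.Agent.P210R Vale.Agent.P210V
open Vale.Agent.P366H (DD DD_ge)

noncomputable section

namespace Vale.Agent.P223C

/-- the weight of the fallback -/
def fb (μ : ℝ) : ℝ := smoothTransition (4 + 8 * -μ) ^ 2

/-- the new distribution -/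
def nd {X : Type} (B K : ℕ → X → ℝ) (m j : ℕ) (y : X) : ℝ :=
  (∑ i ∈ range m, B i y + fb (∑ i ∈ range m, B i y))⁻¹ *
    (B j y + fb (∑ i ∈ range m, B i y) * K j y)

/-- the amplitudes -/
def am {X : Type} (ζ : ℝ → ℝ) (τ : ℝ) (t : ℕ → ℕ → X → ℝ) (N j : ℕ) (y : X) : ℝ :=
  τ⁻¹ * ∑ k ∈ range N, ζ (t k j y) ^ 2

variable {n : ℕ} {X : Type} [Mf0 n X] {g : Fld n X} {B K : ℕ → X → ℝ} {m : ℕ}

theorem outD (hg : Met g) (sB : ∀ j, Smooth (B j)) (B0 : ∀ j y, 0 ≤ B j y) (hK : Dis K m) :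
    Dis (nd B K m) m ∧ ∀ x, En g (nd B K m) m x ≤ 640 * DD ^ 2 * En g B m x + En g K m x ∧
      (1 / 2 ≤ ∑ i ∈ range m, B i x → En g (nd B K m) m x ≤ En g B m x / ∑ i ∈ range m, B i x) := by
  obtain ⟨μ, hμ⟩ : ∃ μ : X → ℝ, μ = fun y => ∑ i ∈ range m, B i y := ⟨_, rfl⟩
  have sμ : Smooth μ := hμ ▸ CD.sum fun j _ => sB j
  have μ0 : ∀ y, 0 ≤ μ y := fun y => hμ ▸ sum_nonneg fun j _ => B0 j y
  have sγ := P210U.sm_st (CD.neg sμ) 8 4
  have sf : Smooth fun y => fb (μ y) := CD.pow sγ 2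
  have f0 : ∀ y, 0 ≤ fb (μ y) := fun y => sq_nonneg _
  have R1 : ∀ y, 3 / 8 ≤ μ y + fb (μ y) := fun y => by
    rcases le_total (μ y) (3 / 8) with h | h
    · rw [fb, P210U.st_one (by linarith)]; linarith [μ0 y]
    · linarith [f0 y]
  have R0 : ∀ y, 0 < μ y + fb (μ y) := fun y => by linarith [R1 y]
  have sL : ∀ j, Smooth fun y => B j y + fb (μ y) * K j y := fun j =>
    CD.add (sB j) (CD.mul sf (hK.sm j))
  have L0 : ∀ j y, 0 ≤ B j y + fb (μ y) * K j y := fun j y =>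
    add_nonneg (B0 j y) (mul_nonneg (f0 y) (hK.nn j y))
  have eR : ∀ y, μ y + fb (μ y) = ∑ j ∈ range m, (B j y + fb (μ y) * K j y) := fun y => by
    rw [sum_add_distrib, ← mul_sum, hK.one, mul_one, hμ]
  have e : nd B K m = fun j y => (μ y + fb (μ y))⁻¹ * (B j y + fb (μ y) * K j y) := by rw [hμ]; rfl
  rw [e]
  refine ⟨⟨fun j => CD.mul (CD.inv (CD.add sμ sf) fun y => (R0 y).ne') (sL j), fun j y =>
    mul_nonneg (inv_pos.2 (R0 y)).le (L0 j y), fun y => ?_⟩, fun x => ?_⟩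
  · rw [← mul_sum, ← eR, inv_mul_cancel₀ (R0 y).ne']
  have h1 : En g (fun j y => (μ y + fb (μ y))⁻¹ * (B j y + fb (μ y) * K j y)) m x ≤
      (En g B m x + En g (fun j y => fb (μ y) * K j y) m x) / (μ x + fb (μ x)) := by
    refine (fi_norm hg (range m) (fun j _ => (sL j).diff x) (fun j _ => L0 j) eR
      (R0 x).ne').trans_le ((sub_le_self _ (div_nonneg (hg.ip_nonneg _ _) (by positivity))).trans
        (div_le_div_of_nonneg_right ?_ (R0 x).le))
    rw [En, En, ← sum_add_distrib]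
    exact sum_le_sum fun j _ => fi_add_le hg ((sB j).diff x) ((sf.diff x).mul ((hK.sm j).diff x))
      (B0 j) fun y => mul_nonneg (f0 y) (hK.nn j y)
  have h2 : fb (μ x) = 0 → En g (fun j y => fb (μ y) * K j y) m x = 0 := fun h =>
    sum_eq_zero fun j _ => fi_zero (by simp only [h, zero_mul])
  have b0 := REn_nonneg (m := m) hg fun j => B0 j x
  have k0 := REn_nonneg (m := m) hg fun j => hK.nn j x
  have d1 : 1 ≤ DD ^ 2 := one_le_pow₀ DD_ge
  have d2 := le_mul_of_one_le_left b0 d1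
  have z : 1 / 2 ≤ μ x → fb (μ x) = 0 := fun h => by
    rw [fb, P210U.st_zero (by linarith), zero_pow two_ne_zero]
  rw [← congrFun hμ x]
  refine ⟨h1.trans ?_, fun h => h1.trans_eq (by rw [h2 (z h), z h, add_zero, add_zero])⟩
  have h3 : En g (fun j y => fb (μ y) * K j y) m x ≤
      fb (μ x) * En g K m x + 128 * DD ^ 2 * En g B m x := by
    by_cases h : fb (μ x) = 0
    · rw [h2 h, h]; positivity
    rw [REn_mul hg hK (sf.diff x) h]
    refine add_le_add_right ((fi_sq_le hg (sγ.diff x)).trans ?_) _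
    have a1 := pow_le_pow_left₀ (gn_nonneg _ _ _)
      (P210U.gn_st g (CD.neg sμ) (show (0 : ℝ) ≤ 8 by norm_num) 4 x) 2
    rw [mul_pow, hg.gn_sq, hg.gn_sq, ip_of_pd (u := fun y => -μ y) (v := fun y => -μ y) (u' := μ)
      (v' := μ) (s := -1) (t := -1) (fun i => by rw [pd_neg]; ring) fun i => by rw [pd_neg]; ring,
      ip_eq_fi μ0] at a1
    have a2 : fi g μ x ≤ En g B m x := hμ ▸ fi_sum_le hg _ (fun j _ => (sB j).diff x) fun j _ => B0 j
    have a3 := mul_le_mul (not_le.1 fun q => h (z q)).le a2 (fi_nonneg hg (μ0 x)) (by norm_num)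
    nlinarith [mul_le_mul_of_nonneg_left a3 (sq_nonneg DD)]
  rw [div_le_iff₀ (R0 x)]
  nlinarith [mul_le_mul_of_nonneg_left (R1 x) (b0.trans d2), mul_nonneg k0 (μ0 x)]

theorem ampD (hg : Met g) {t : ℕ → ℕ → X → ℝ} {N : ℕ} {τ s r₀ d : ℝ} {ζ : ℝ → ℝ} (τ0 : 0 < τ)
    (sN : N * s = τ) (r1 : r₀ ≤ s / 16) (hd : m * (4 * d ^ 2) ≤ s / 64) (sζ : ContDiff ℝ ∞ ζ)
    (ζ1 : ∀ t, 0 < t → t ^ 2 ≤ ζ t ^ 2 + 4 * d ^ 2)
    (ζ2 : ∀ t, ∃ a, HasDerivAt ζ a t ∧ a * a ≤ 9 * DD ^ 2) (ht : ∀ k j, Smooth (t k j))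
    (h0 : ∀ k, ∀ j < m, ∀ x, 0 < t k j x) : (∀ j, Smooth (am ζ τ t N j)) ∧
      (∀ j x, 0 ≤ am ζ τ t N j x) ∧ ∀ x,
      ∑ k ∈ range N, P210R.rr r₀ (t k) m x ≤ τ * (∑ j ∈ range m, am ζ τ t N j x + 5 / 64) ∧
      En g (am ζ τ t N) m x ≤
        9 * DD ^ 2 * (∑ k ∈ range N, ∑ j ∈ range m, ip g (t k j) (t k j) x) / τ := by
  have sz : ∀ k j, Smooth fun y => ζ (t k j y) := fun k j => sζ.compM (ht k j)
  refine ⟨fun j => CD.mul cd_const (CD.sum fun k _ => CD.pow (sz k j) 2), fun j x => by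
    unfold am; positivity, fun x => ⟨?_, ?_⟩⟩
  · have h1 : ∀ k ∈ range N, rr r₀ (t k) m x ≤ ∑ j ∈ range m, ζ (t k j x) ^ 2 + 5 / 64 * s :=
      fun k _ => by
        have := sum_le_sum fun j hj => ζ1 _ (h0 k j (mem_range.1 hj) x)
        simp only [sum_add_distrib, sum_const, card_range, nsmul_eq_mul] at this
        rw [P210R.rr]
        linarith
    refine (sum_le_sum h1).trans_eq ?_
    simp only [am, ← mul_sum, sum_add_distrib, sum_const, card_range, nsmul_eq_mul]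
    rw [mul_add, mul_inv_cancel_left₀ τ0.ne', ← sN, sum_comm]
    ring
  · rw [sum_comm, div_eq_inv_mul, mul_sum, mul_sum]
    refine sum_le_sum fun j _ => (fi_const_mul _).trans_le (mul_le_mul_of_nonneg_left
      ((fi_sum_le hg _ (fun k _ => ((sz k j).diff x).pow 2) fun _ _ _ => sq_nonneg _).trans ?_)
      (inv_pos.2 τ0).le)
    rw [mul_sum]
    refine sum_le_sum fun k _ => (fi_sq_le hg ((sz k j).diff x)).trans ?_
    obtain ⟨y, y1, y2⟩ := ζ2 (t k j x)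
    rw [ip_comp y1 y1 ((ht _ _).diff x) ((ht _ _).diff x)]
    exact mul_le_mul_of_nonneg_right y2 (hg.ip_nonneg _ _)

end Vale.Agent.P223C
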