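import Vale.Agent.P210C.Move
import Vale.Agent.P210K.Tr

/-!
# P223C: the raw graph move on an arbitrary manifold, with the gain `log W`
-/

open Filter Topology Set
open scoped ContDiff
open Vale.Agent.P366M Vale.Agent.P366M.Gr Vale.Agent.P366M.Y.C
open Vale.Agent.P366D (Sec IsoM)
open Vale.Agent.P210G Vale.Agent.P210C Vale.Agent.P210K

noncomputable section

namespace Vale.Agent.P223C

variable {n : ℕ} {M : Type} [Mf0 n M] {g : Fld n M} {v : Fin n → M → ℝ} {h w : M → ℝ}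
  {Np Nm Bp Bm K₀ : Set M} {A A' b T α η : ℝ} {β d : ℝ → ℝ} {x : M}

/-- the solution `w` of the capillary equation with the label `h` and the spring `β` near `K₀` -/
structure Raw (g : Fld n M) (v : Fin n → M → ℝ) (h : M → ℝ) (Bp Bm K₀ : Set M) (A A' b T α : ℝ)
    (w : M → ℝ) (β d : ℝ → ℝ) : Prop where
  smw : Smooth w
  lo : ∀ x ∈ Bp, w x ≤ -T
  hi : ∀ x ∈ Bm, T ≤ w x
  eq : ∀ x ∈ K₀, hv g v w =ᶠ[𝓝 x] fun y => h y + β (w y)
  bd : ∀ x ∈ K₀, |hv g v w x| ≤ 2 * A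
  der : ∀ t, HasDerivAt β (d t) t
  pos : ∀ t, α ≤ d t
  mono : Monotone β
  odd : ∀ t, β (-t) = -β t
  lin : ∀ t, |t| ≤ T → β t = α * t
  alt : ∀ t, A' ≤ d t ∨ |β t| ≤ b

/-- **the raw move** -/
theorem raw (hn : 2 ≤ n) (hg : Met g) (cv : CC ∞ v) (op : IsOpen Np) (om : IsOpen Nm)
    (cp : IsClosed Bp) (cm : IsClosed Bm) (sp : Bp ⊆ Np) (sm : Bm ⊆ Nm) (hK : IsCompact K₀)
    (cov : K₀ᶜ ⊆ Bp ∪ Bm) : ∃ A₀ > (0 : ℝ), ∀ A ≥ A₀, ∀ h, Smooth h → (∀ x, |h x| ≤ A) →
      (∀ x ∈ Np, h x = A) → (∀ x ∈ Nm, h x = -A) → ∀ A' : ℝ, ∀ b > (0 : ℝ), b ≤ 1 →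
      ∀ T > (0 : ℝ), ∃ α > (0 : ℝ), α * T ≤ b ∧ ∃ w β d, Raw g v h Bp Bm K₀ A A' b T α w β d := by
  obtain ⟨p⟩ : Nonempty M := inferInstance
  obtain ⟨X, _, _, π, σ, V, a, -, s⟩ := P210L.closeup hg (hK.insert p) isOpen_univ (subset_univ _)
    (insert_nonempty _ _)
  have cπ : Continuous π := continuous_iff_continuousAt.2 fun x => (s.sm x).ct
  have cv' : CC ∞ (pullC π v) := cv.pull le_rfl s.sm
  obtain ⟨χ, c1, -, c2, c3, c4⟩ := exists_cut hK s.opn ((subset_insert _ _).trans a)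
  obtain ⟨Λp, p0, hp⟩ := side bg_met cv' (cp.preimage cπ).isCompact (op.preimage cπ)
    (preimage_mono sp)
  obtain ⟨Λm, m0, hm⟩ := side bg_met cv' (cm.preimage cπ).isCompact (om.preimage cπ)
    (preimage_mono sm)
  obtain ⟨Ap, Ap0, hp⟩ := hp 1 one_pos
  obtain ⟨Am, Am0, hm⟩ := hm 1 one_pos
  refine ⟨Λp + Λm + 2, by positivity, fun A hA h hh hb h1 h2 A' b b0 b1 T T0 => ?_⟩
  have A0 : 0 < A := by linarith
  obtain ⟨α, α0, αT, θ, c, β, d, S⟩ := exists_stf A (A := Ap + Am + |A'|) (by positivity) b0 T0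
  have q := abs_nonneg A'
  obtain ⟨w, sw, bw, eq, -⟩ := sols hn bg_met cv' S α0 (P366D.smooth_comp s.sm hh) fun x => hb _
  have m := (S.smono α0 1).monotone
  have z : ∀ x, χ x ≠ 0 → π (σ x) = x := fun x k => s.rt x (c2 (subset_tsupport _ k))
  have sw' : Smooth fun x => χ x * w 1 (σ x) + (1 - χ x) * (-T * (h x / A)) :=
    CD.add (sm_cut s.sms c1 c2 (sw 1)) (CD.mul (CD.sub cd_const c1)
      (CD.mul cd_const (CD.div_const hh A)))
  have eH : ∀ x ∈ K₀, ∀ᶠ y in 𝓝 x, hv g v (fun x => χ x * w 1 (σ x) +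
      (1 - χ x) * (-T * (h x / A))) y = h y + β 1 (w 1 (σ y)) ∧ χ y = 1 := fun x hx => by
    filter_upwards [(c4 x hx).eventuallyEq_nhds, s.opn.mem_nhds (a (.inr hx))] with y k hy
    rw [hv_eq (iso_sec s hy (s.iso y hy)) (v := pullC π v) (fun j => by
      rw [pullC_pullC (s.sm _) (s.sms y hy), pullC_of_id (rt_ev s hy)]) (sw 1)
      (k.mono fun y k => by simp only [k]; ring), eq, S.θ1, s.rt y hy, one_mul]
    exact ⟨rfl, k.self_of_nhds⟩
  refine ⟨α, α0, αT, _, β 1, d 1, sw', fun x hx => ?_, fun x hx => ?_,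
    fun x hx => (eH x hx).mono fun y k => by simp only [k.1, k.2]; congr 2; ring, fun x hx => ?_,
    S.der 1, S.lo 1, m, S.odd 1, S.lin,
    fun t => (S.alt 1 t).imp (fun k => by linarith [le_abs_self A']) And.right⟩
  · rw [h1 x (sp hx), div_self A0.ne']
    by_cases k : χ x = 0
    · simp [k]
    have := S.lt_of α0 αT T0.le ((hp S α0 (by linarith) (by linarith) 1 _ (sw 1)
      (fun x hx => by rw [eq, h1 _ hx]) (σ x) (show π (σ x) ∈ Bp by rwa [z x k])).2 S.θ1)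
    nlinarith [c3 x]
  · rw [h2 x (sm hx), neg_div, div_self A0.ne']
    by_cases k : χ x = 0
    · simp [k]
    have := S.lt_of α0 αT T0.le ((hm S α0 (by linarith) (by linarith) 1 _ (CD.neg (sw 1))
      (fun x hx => by rw [P210Y.hv_neg, eq, h2 _ hx, S.odd]; ring) (σ x)
      (show π (σ x) ∈ Bm by rwa [z x k])).2 S.θ1)
    nlinarith [c3 x]
  · have h3 := m (abs_le.1 (bw 1 (σ x))).1
    have h4 := m (abs_le.1 (bw 1 (σ x))).2
    rw [S.odd, S.rt, S.θ1] at h3
    rw [S.rt, S.θ1] at h4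
    rw [(eH x hx).self_of_nhds.1]
    exact abs_le.2 ⟨by linarith [(abs_le.1 (hb x)).1], by linarith [(abs_le.1 (hb x)).2]⟩

theorem two_lw_le (hg : Met g) (w : M → ℝ) (x : M) : 2 * lw g w x ≤ dn g w w x := by
  have h1 := GbH.one_le_ww hg 1 w x
  have h2 := w_sq hg w x
  have h3 := Real.log_le_sub_one_of_pos (w_pos hg w x)
  rw [dn, lw, show ip g w w x = ww g 1 w x ^ 2 - 1 by linarith]
  generalize ww g 1 w x = W at *
  have k : MonotoneOn (fun t : ℝ => t - t⁻¹ - 2 * Real.log t) (Ici 1) := by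
    refine monotoneOn_of_hasDerivWithinAt_nonneg (f' := fun t => (1 - t⁻¹) ^ 2) (convex_Ici 1)
      (fun t ht => ?_) (fun t ht => ?_) fun t _ => sq_nonneg _
    · have : t ≠ 0 := (one_pos.trans_le ht).ne'
      exact ((continuousAt_id.sub (continuousAt_inv₀ this)).sub
        (continuousAt_const.mul (Real.continuousAt_log this))).continuousWithinAt
    · have : t ≠ 0 := (one_pos.trans_le (interior_subset ht)).ne'
      refine ((((hasDerivAt_id t).sub (hasDerivAt_inv this)).sub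
        ((Real.hasDerivAt_log this).const_mul 2)).congr_deriv ?_).hasDerivWithinAt
      field_simp
      ring
  have := k self_mem_Ici h1 h1
  rw [le_div_iff₀ (by linarith)]
  simp only [inv_one, Real.log_one] at this
  have e : W * W⁻¹ = 1 := mul_inv_cancel₀ (by linarith)
  nlinarith

namespace Raw

variable (R : Raw g v h Bp Bm K₀ A A' b T α w β d)
include R

theorem zero : β 0 = 0 := by
  have := R.odd 0
  rw [neg_zero] at this
  linarith

theorem sgn (t : ℝ) : 0 ≤ β t * t := (le_total t 0).elim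
  (fun k => mul_nonneg_of_nonpos_of_nonpos (R.zero ▸ R.mono k) k)
  fun k => mul_nonneg (R.zero ▸ R.mono k) k

variable (hg : Met g) (cv : CC ∞ v) (hh : Smooth h) (α0 : 0 ≤ α) (hx : x ∈ K₀)
include hg cv hh hx

theorem base : Rv g v x + (h x + β (w x)) ^ 2 + 2 * (dn g w h x + d (w x) * dn g w w x) ≤
    Rv (gb g 1 w) (vg g v w) x := by
  have := gid_ge hg cv R.smw x
  rwa [dn_lin (s := 1) (w := h) (t := d (w x)) (ζ := w) fun i => by
    rw [pd_congr (R.eq x hx), pd_add (hh.diff x) ((R.der _).differentiableAt.compM (R.smw.diff x)),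
      pd_comp (R.der _) (R.smw.diff x), one_mul], (R.eq x hx).self_of_nhds, one_mul] at this

include α0 in
/-- the gain where the spring is small or has the sign of the label -/
theorem gain (k : -η ≤ 2 * (h x * β (w x))) :
    Rv g v x + h x ^ 2 - 2 * gn g h x - η ≤ Rv (gb g 1 w) (vg g v w) x := by
  nlinarith [R.base hg cv hh hx, mul_nonneg (α0.trans (R.pos (w x))) (dn_nonneg hg w x),
    sq_nonneg (β (w x)), (abs_le.1 (abs_dn_le hg w h x)).1]

/-- the gain where the spring is stiff -/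
theorem stiff {γ : ℝ} (η0 : 0 < η) (γ0 : 0 ≤ γ) (hA : γ + gn g h x ^ 2 / η ≤ A')
    (k : A' ≤ d (w x)) : Rv g v x + 4 * γ * lw g w x - η ≤ Rv (gb g 1 w) (vg g v w) x := by
  have s0 := dn_nonneg hg w x
  have h0 : 0 ≤ gn g h x ^ 2 / η := by positivity
  have h1 := dn_sq_le hg w h x
  have e : gn g h x ^ 2 / η * η = gn g h x ^ 2 := div_mul_cancel₀ _ η0.ne'
  have h2 : |2 * dn g w h x| ≤ gn g h x ^ 2 / η * dn g w w x + η := abs_le_of_sq_le_sq (by
    nlinarith [sq_nonneg (gn g h x ^ 2 / η * dn g w w x - η)]) (by positivity)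
  nlinarith [R.base hg cv hh hx, (abs_le.1 h2).1, mul_le_mul_of_nonneg_right (hA.trans k) s0,
    sq_nonneg (h x + β (w x)), mul_le_mul_of_nonneg_left (two_lw_le hg w x) γ0, mul_nonneg h0 s0]

include α0 in
/-- **the mass clause** -/
theorem mass {γ : ℝ} (η0 : 0 < η) (γ0 : 0 ≤ γ) (hA : γ + gn g h x ^ 2 / η ≤ A') (hM : |h x| ≤ A)
    (hb : 2 * (A * b) ≤ η) : min (Rv g v x + 4 * γ * lw g w x)
      (Rv g v x + h x ^ 2 - 2 * gn g h x) - η ≤ Rv (gb g 1 w) (vg g v w) x := by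
  rcases R.alt (w x) with k | k
  · linarith [R.stiff hg cv hh hx η0 γ0 hA k, min_le_left (Rv g v x + 4 * γ * lw g w x)
      (Rv g v x + h x ^ 2 - 2 * gn g h x)]
  · have h1 : |h x * β (w x)| ≤ A * b := by
      rw [abs_mul]; exact mul_le_mul hM k (abs_nonneg _) ((abs_nonneg _).trans hM)
    linarith [R.gain hg cv hh α0 hx (η := η) (by linarith [(abs_le.1 h1).1]),
      min_le_right (Rv g v x + 4 * γ * lw g w x) (Rv g v x + h x ^ 2 - 2 * gn g h x)]

include α0 in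
/-- the gain below the height `T` where the label is negative, and above `-T` where it is positive -/
theorem fin (T0 : 0 ≤ T) (αT : α * T ≤ b) (hM : |h x| ≤ A) (hb : 2 * (A * b) ≤ η)
    (q : -T ≤ w x ∧ 0 ≤ h x ∨ w x ≤ T ∧ h x ≤ 0) :
    Rv g v x + h x ^ 2 - 2 * gn g h x - η ≤ Rv (gb g 1 w) (vg g v w) x := by
  have e := R.lin T (abs_of_nonneg T0).le
  obtain ⟨a1, a2⟩ := abs_le.1 hM
  have b0 : 0 ≤ b := (mul_nonneg α0 T0).trans αT
  refine R.gain hg cv hh α0 hx ?_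
  rcases q with ⟨q1, q2⟩ | ⟨q1, q2⟩
  · have := R.mono q1
    rw [R.odd] at this
    nlinarith
  · nlinarith [R.mono q1]

end Raw

end Vale.Agent.P223C
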