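import Vale.Agent.P223C.Out

/-!
# P223C: a chain of sweeps with a link term (the pointwise part of a round)
-/

open Finset Real
open scoped ContDiff
open Vale.Agent.P366M Vale.Agent.P210G Vale.Agent.P210R Vale.Agent.P210V
open Vale.Agent.P210A (qq dd qq_gs up_gs exists_frame gain1 gain2)
open Vale.Agent.P210U (Up)
open Vale.Agent.P210S (up_refl up_trans ip_mono)
open Vale.Agent.P366H (DD DD_ge)

noncomputable section

namespace Vale.Agent.P223C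

/-- the fallback function -/
def fo (μ : ℝ) : ℝ := smoothTransition (10 + 16 * -μ)

variable {n : ℕ} {X : Type} [Mf0 n X] {g : ℕ → Fld n X} {v : ℕ → Fin n → X → ℝ}
  {K t : ℕ → ℕ → X → ℝ} {V : ℕ → X → ℝ} {ℓ : ℕ → ℝ} {m N : ℕ} {x : X}
  {δ α a b s r₀ d τ L E κ : ℝ} {ζ : ℝ → ℝ}

theorem up_chain (e : ∀ k, g (k + 1) = gs (g k) (t k) m) {k l : ℕ} (h : k ≤ l) :
    Up (g k) (g l) := by
  induction l, h using Nat.le_induction with
  | base => exact up_refl _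
  | succ l _ ih => exact up_trans ih (e l ▸ up_gs m)

theorem en_chain (hg : ∀ k, Met (g k)) (e : ∀ k, g (k + 1) = gs (g k) (t k) m) (N : ℕ) (x : X) :
    ∑ k ∈ range N, ∑ j ∈ range m, ip (g N) (t k j) (t k j) x ≤ n ∧
      ∑ k ∈ range N, ∑ j ∈ range m, ip (g N) (t k j) (t k j) x ≤
        ∑ k ∈ range N, tt (g k) (t k) m x := by
  have u2 : ∀ ξ l, qq (g l) x ξ =
      qq (g 0) x ξ + ∑ k ∈ range l, ∑ j ∈ range m, dd (t k j) x ξ ^ 2 := fun ξ l => by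
    induction l with
    | zero => simp
    | succ l ih => rw [e, qq_gs, ih, sum_range_succ, add_assoc]
  refine ⟨?_, sum_le_sum fun k hk => sum_le_sum fun j _ => ?_⟩
  · obtain ⟨F, f1, f2⟩ := exists_frame (hg N) x
    rw [← f2]
    simp only [u2 _ N, sum_add_distrib, f1, ← sq]
    refine le_trans (le_of_eq ?_) (le_add_of_nonneg_left (sum_nonneg fun l _ => (hg 0).g_nonneg x _))
    conv_rhs => rw [sum_comm]
    exact sum_congr rfl fun _ _ => sum_comm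
  · rw [← e]
    exact ip_mono (hg _) (hg N) (up_chain e (mem_range.1 hk)) _ _

/-- **the pointwise part of a round** -/
theorem roundD (hg : ∀ k, Met (g k)) (e : ∀ k, g (k + 1) = gs (g k) (t k) m)
    (ht : ∀ k j, Smooth (t k j)) (t0 : ∀ k, ∀ j < m, ∀ x, 0 < t k j x) (hK : Dis (K 0) m)
    (K0 : ∀ j, 0 ≤ K N j x) (V0 : ∀ j, V j x * K 0 j x = 0) (V1 : ∀ j, 0 ≤ V j x * K N j x)
    (δ0 : 0 ≤ δ) (δ1 : δ ≤ 1) (α0 : 0 ≤ α) (b0 : 0 ≤ b) (s0 : 0 < s) (r0 : 0 < r₀) (N0 : 0 < N)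
    (sN : N * s = τ) (r1 : r₀ ≤ s / 16) (hd : m * (4 * d ^ 2) ≤ s / 64) (sζ : ContDiff ℝ ∞ ζ)
    (ζ1 : ∀ t, 0 < t → t ^ 2 ≤ ζ t ^ 2 + 4 * d ^ 2)
    (ζ2 : ∀ t, ∃ a, HasDerivAt ζ a t ∧ a * a ≤ 9 * DD ^ 2) (hE : En (g 0) (K 0) m x ≤ E)
    (hq : 32 * δ * τ * (640 * DD ^ 2 * (9 * DD ^ 2 * n) / τ + E) ^ 2 + |κ| ≤ N * b / 16)
    (st : ∀ k, SS δ α V (g k) (v k) (K k) m x +
      60 * (9 * DD ^ 2) ^ 2 * δ * (tt (g k) (t k) m x ^ 2 / P210R.rr r₀ (t k) m x) +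
      (if P210R.rr r₀ (t k) m x ≤ 3 / 4 * s then b else 0) - L + (ℓ (k + 1) - ℓ k) ≤
        SS δ α V (g (k + 1)) (v (k + 1)) (K (k + 1)) m x) :
    En (g N) (nd (am ζ τ t N) (K 0) m) m x ≤
        640 * DD ^ 2 * (9 * DD ^ 2 * n) / τ + En (g 0) (K 0) m x ∧
      (fo (∑ j ∈ range m, am ζ τ t N j x) ≤ 1 / 2 →
        En (g N) (nd (am ζ τ t N) (K 0) m) m x ≤ 640 * DD ^ 2 * (9 * DD ^ 2 * n) / τ) ∧
      Rv (g 0) (v 0) x - α * E - N * L + 32 * δ * τ * En (g N) (nd (am ζ τ t N) (K 0) m) m x ^ 2 +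
        κ * fo (∑ j ∈ range m, am ζ τ t N j x) + (ℓ N - ℓ 0) ≤ Rv (g N) (v N) x := by
  have d1 : 1 ≤ DD ^ 2 := one_le_pow₀ DD_ge
  have τ0 : 0 < τ := sN ▸ mul_pos (Nat.cast_pos.2 N0) s0
  obtain ⟨a1, a2, a3⟩ := ampD (hg N) τ0 sN r1 hd sζ ζ1 ζ2 ht t0
  obtain ⟨u5, u7⟩ := a3 x
  obtain ⟨o1, o2⟩ := outD (hg N) a1 a2 hK
  obtain ⟨o5, o8⟩ := o2 x
  obtain ⟨u8, u6⟩ := en_chain hg e N x
  have w0 := REn_nonneg (m := m) (hg N) fun j => o1.nn j x
  have z0 := REn_nonneg (m := m) (hg N) fun j => a2 j x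
  have u9 : 640 * DD ^ 2 * En (g N) (am ζ τ t N) m x ≤ 640 * DD ^ 2 * (9 * DD ^ 2 * n) / τ := by
    rw [mul_div_assoc]
    gcongr
    refine u7.trans ?_
    gcongr
  have r2 : ∀ k, 0 < P210R.rr r₀ (t k) m x := fun k => by rw [P210R.rr]; positivity
  have u4 : ∀ l, SS δ α V (g 0) (v 0) (K 0) m x + 60 * (9 * DD ^ 2) ^ 2 * δ *
      ∑ k ∈ range l, tt (g k) (t k) m x ^ 2 / P210R.rr r₀ (t k) m x +
      (∑ k ∈ range l, if P210R.rr r₀ (t k) m x ≤ 3 / 4 * s then b else 0) - l * L + (ℓ l - ℓ 0) ≤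
      SS δ α V (g l) (v l) (K l) m x := fun l => by
    induction l with
    | zero => simp
    | succ l ih =>
      rw [sum_range_succ, sum_range_succ, Nat.cast_succ]
      linarith [st l]
  have w6 := (u4 N).trans (sub_le_self _ (mul_nonneg α0 (add_nonneg (REn_nonneg (hg N) K0)
    (mul_nonneg (by linarith) (sum_nonneg fun j _ => V1 j)))))
  rw [SS, sum_eq_zero fun j _ => V0 j, mul_zero, add_zero] at w6
  have w2 := mul_le_mul_of_nonneg_left hE α0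
  have w1 := o5.trans (add_le_add u9 (REn_anti (up_chain e N.zero_le) (hg 0) (hg N)
    fun j => hK.nn j x))
  generalize En (g N) (nd (am ζ τ t N) (K 0) m) m x = E' at *
  generalize ∑ j ∈ range m, am ζ τ t N j x = μ at *
  refine ⟨w1, fun h => ?_, ?_⟩
  · have h' : 1 / 2 ≤ μ := not_lt.1 fun q => by
      rw [fo, P210U.st_one (by linarith)] at h
      norm_num at h
    refine (o8 h').trans (le_trans ?_ u9)
    rw [div_eq_inv_mul]
    gcongr
    exact (inv_le_of_inv_le₀ two_pos (by linarith only [h'])).trans (by linarith only [d1])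
  rcases le_total (5 / 8) μ with h | h
  · have w7 := mul_le_mul_of_nonneg_left (gain1 N0 τ0 h r2 (sum_nonneg fun k _ => sum_nonneg
      fun j _ => (hg N).ip_nonneg _ _) u6 u5 w0 ((o8 (by linarith only [h])).trans (by gcongr))) δ0
    have w8 : 0 ≤ ∑ k ∈ range N, if P210R.rr r₀ (t k) m x ≤ 3 / 4 * s then b else 0 :=
      sum_nonneg fun k _ => by split_ifs <;> positivity
    rw [fo, P210U.st_zero (by linarith)]
    linarith only [w2, w6, w7, w8]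
  · have w7 := gain2 s0 b0 r2 (u5.trans (by rw [sN]; gcongr))
    have w8 : κ * fo μ ≤ |κ| := (mul_le_mul_of_nonneg_right (le_abs_self κ)
      (smoothTransition.nonneg _)).trans
        (mul_le_of_le_one_right (abs_nonneg κ) (smoothTransition.le_one _))
    have w9 : 32 * δ * τ * E' ^ 2 ≤
        32 * δ * τ * (640 * DD ^ 2 * (9 * DD ^ 2 * n) / τ + E) ^ 2 := by
      gcongr
      linarith only [hE, w1]
    have w5 : 0 ≤ 60 * (9 * DD ^ 2) ^ 2 * δ *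
        ∑ k ∈ range N, tt (g k) (t k) m x ^ 2 / P210R.rr r₀ (t k) m x :=
      mul_nonneg (by positivity) (sum_nonneg fun k _ => div_nonneg (sq_nonneg _) (r2 k).le)
    linarith only [w2, w5, w6, w7, w8, w9, hq]

end Vale.Agent.P223C
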