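import Vale.Agent.P223C.Rd
import Vale.Agent.P223Q.Dm
import Vale.Agent.P223W.Defs

/-!
# P223C: `RND` from `SWF`
-/

open Finset Real
open scoped ContDiff
open Vale.Agent.P366M Vale.Agent.P210G Vale.Agent.P210R Vale.Agent.P210V
open Vale.Agent.P210A (seq par small zeta up_gs)
open Vale.Agent.P223Y Vale.Agent.P223F Vale.Agent.P223A Vale.Agent.P223W
open Vale.Agent.P223B (ld)
open Vale.Agent.P223Q (rn_sum)
open Vale.Agent.P366H (DD DD_ge)

noncomputable section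

namespace Vale.Agent.P223C

/-- **RND** -/
theorem rnd {n : ℕ} (H : SWF n) : RND n := by
  have d1 : 1 ≤ DD ^ 2 := one_le_pow₀ DD_ge
  obtain ⟨δ, δ0, δ1, c, c0, θ, θ0, C, C0, α₀, α0, ν, ν0, ν1, H⟩ :=
    H (60 * (9 * DD ^ 2) ^ 2) (by nlinarith)
  refine ⟨δ, δ0, C + 640 * DD ^ 2 * (9 * DD ^ 2 * n), by positivity, θ, θ0, ν, ν0, ν1,
    fun X Γ _ _ _ dk F g₀ Λ U V K m g v Q B τ ε κ h₀ Λ0 V0 hF S hK hS hB τ0 ε0 => ?_⟩
  have E0 : ∀ o x, 0 ≤ En (g o) (fun j => K j o) m x := fun o x =>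
    REn_nonneg (S.met o) fun j => (hK.dis o).nn j x
  obtain ⟨α, a0, a1, a2⟩ := small α0 (abs_nonneg B) (half_pos ε0)
  obtain ⟨s₀, s0, H⟩ := H X Γ dk F g₀ Λ U V K m (fun o => En (g o) (fun j => K j o) m) B α h₀ Λ0 V0
    hF hK hS (fun o x => ⟨E0 o x, hB o x⟩) a0 a1
  obtain ⟨N, s, N0, s1, s2, sN, hq⟩ := par
    (Q := 32 * δ * τ * (640 * DD ^ 2 * (9 * DD ^ 2 * n) / τ + |B|) ^ 2 + |κ|)
    (a := c * α ^ 2) τ0 s0 (by positivity) (by positivity)
  obtain ⟨r₀, r0, r1, H⟩ := H s s1 s2 (ε / 2 / N) (by positivity)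
  obtain ⟨d, d0, d2, d3⟩ := small (b := 4 * m) (c := s / 64) one_pos (by positivity) (by positivity)
  obtain ⟨ζ, sζ, ζ0, ζ1, ζ2⟩ := zeta d0
  have hd : (m : ℝ) * (4 * d ^ 2) ≤ s / 64 := le_trans (by
    rw [show (m : ℝ) * (4 * d ^ 2) = d * (d * (4 * m)) by ring]
    exact mul_le_of_le_one_left (by positivity) d2) d3
  obtain ⟨a, t, e0, ha⟩ := seq
    (P := fun a : (F.Ω → Fld n X) × (F.Ω → Fin n → X → ℝ) × (F.Ω → X → ℝ) × (ℕ → F.Ω → X → ℝ) × ℝ =>
      Gs F g₀ a.1 a.2.1 a.2.2.1 ∧ Dr F a.2.2.2.1 m ∧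
      (∀ j o x, a.2.2.2.1 j o x ≠ 0 → x ∈ U j o ∧ V j o x ≤ a.2.2.2.2) ∧
      ∀ o x, En (a.1 o) (fun j => K j o) m x ≤ En (g o) (fun j => K j o) m x)
    (R := fun a (t : ℕ → F.Ω → X → ℝ) a' => (∀ o, a'.1 o = gs (a.1 o) (fun j => t j o) m) ∧
      (∀ j, Rs F (t j)) ∧ (∀ j < m, ∀ o x, 0 < t j o x ∧ (x ∉ U j o → t j o x ≤ d)) ∧ ∀ o x,
        SS δ α (fun j => V j o) (a.1 o) (a.2.1 o) (fun j => a.2.2.2.1 j o) m x +
          60 * (9 * DD ^ 2) ^ 2 * δ *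
            (tt (a.1 o) (fun j => t j o) m x ^ 2 / P210R.rr r₀ (fun j => t j o) m x) +
          (if P210R.rr r₀ (fun j => t j o) m x ≤ 3 / 4 * s then c * α ^ 2 / s else 0) -
          (C * s * (Λ + 1) + δ * s * En (g o) (fun j => K j o) m x ^ 2 + ε / 2 / N) +
          (ld (a'.1 o) x + ν * a'.2.2.1 o x - (ld (a.1 o) x + ν * a.2.2.1 o x)) ≤
        SS δ α (fun j => V j o) (a'.1 o) (a'.2.1 o) (fun j => a'.2.2.2.1 j o) m x)
    (fun a ⟨h1, h2, h3, h4⟩ => by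
      obtain ⟨t, v', Q', K', h', b1, b2, b3, b4, b5, b6⟩ := H d d0 _ _ _ _ _ h1 h2 h3 h4
      exact ⟨t, (_, v', Q', K', h'), ⟨b2, b3, b4, fun o x => (REn_anti (up_gs m) (h1.met o)
        (b2.met o) fun j => (hK.dis o).nn j x).trans (h4 o x)⟩, fun _ => rfl, b1, b5,
        fun o x => by linarith [b6 o _ rfl x]⟩) (a₀ := (g, v, Q, K, 0)) ⟨S, hK, hS, fun _ _ => le_rfl⟩
  clear H
  choose hP m6 m7 m8 m9 using ha
  choose m1 m2 m3 m4 using hP
  have V2 : ∀ k j o x, 0 ≤ V j o x * (a k).2.2.2.1 j o x := fun k j o x => by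
    by_cases h : (a k).2.2.2.1 j o x = 0
    · rw [h, mul_zero]
    · exact mul_nonneg (V0 j o x (m3 k j o x h).1) (((m2 k).dis o).nn j x)
  have V1 : ∀ j o x, V j o x * (a 0).2.2.2.1 j o x = 0 := fun j o x => by
    rw [e0]
    by_cases h : K j o x = 0
    · simp only [h, mul_zero]
    · rw [le_antisymm (hS j o x h).2 (V0 j o x (hS j o x h).1), zero_mul]
  have R := fun o x => roundD (g := fun k => (a k).1 o) (v := fun k => (a k).2.1 o)
    (K := fun k j => (a k).2.2.2.1 j o) (t := fun k j => t k j o) (V := fun j => V j o)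
    (ℓ := fun k => ld ((a k).1 o) x + ν * (a k).2.2.1 o x) (κ := κ) (fun k => (m1 k).met o)
    (fun k => m6 k o) (fun k j => (m7 k j).sm o) (fun k j h x => (m8 k j h o x).1) ((m2 0).dis o)
    (fun j => ((m2 N).dis o).nn j x) (fun j => V1 j o x) (fun j => V2 N j o x) δ0.le δ1 a0.le
    (by positivity) s1 r0 N0 sN r1 hd sζ ζ1 ζ2
    (((m4 0 o x).trans' (by rw [e0])).trans ((hB o x).trans (le_abs_self B))) hq fun k => m9 k o x
  have A := fun o => ampD ((m1 N).met o) (t := fun k j => t k j o) τ0 sN r1 hd sζ ζ1 ζ2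
    (fun k j => (m7 k j).sm o) fun k j h x => (m8 k j h o x).1
  have D := fun o => (outD ((m1 N).met o) (A o).1 (A o).2.1 (hK.dis o)).1
  have ra : ∀ j, Rn F fun o => am ζ τ (fun k j => t k j o) N j := fun j =>
    rn_map (rn_sum (range N) fun k _ => rn_map (m7 k j).toRn fun y => ζ y ^ 2) (τ⁻¹ * ·)
  have rm := rn_sum (range m) fun j _ => ra j
  simp only [e0] at R
  refine ⟨(a N).1, (a N).2.1, (a N).2.2.1,
    fun o x => fo (∑ j ∈ range m, am ζ τ (fun k j => t k j o) N j x), fun j o => if j < m then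
      nd (am ζ τ (fun k j => t k j o) N) (fun j => K j o) m j else fun _ => 0, m1 N,
    ⟨fun j => ?_, fun o => ⟨fun j => ?_, fun j x => ?_, fun x => ((D o).one x).symm ▸
      sum_congr rfl fun j h => by rw [if_pos (mem_range.1 h)]⟩⟩, fun j o x h => ?_,
    fun o x E E' hE hE' => ?_⟩
  · split_ifs
    · exact rn_map₂ rm (rn_prod (ra j) (hK.rn j)) fun μ y => (μ + fb μ)⁻¹ * (y.1 + fb μ * y.2)
    · exact rn_cst 0
  · split_ifs
    exacts [(D o).sm j, cd_const]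
  · split_ifs
    exacts [(D o).nn j x, le_rfl]
  · beta_reduce at h
    split_ifs at h with q
    swap
    · exact absurd rfl h
    by_contra u
    have z : am ζ τ (fun k j => t k j o) N j x = 0 := mul_eq_zero_of_right _
      (sum_eq_zero fun k _ => by rw [ζ0 _ ((m8 k j q o x).2 u), zero_pow two_ne_zero])
    refine h ?_
    rw [nd, z, show K j o x = 0 from by_contra fun w => u (hS j o x w).1]
    simp
  obtain ⟨o1, o2, o3⟩ := R o x
  have e : E' = En ((a N).1 o) (nd (am ζ τ (fun k j => t k j o) N) (fun j => K j o) m) m x :=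
    hE'.trans (sum_congr rfl fun j h => by simp only [if_pos (mem_range.1 h)])
  rw [← e, ← hE] at o1 o3
  rw [← e] at o2
  beta_reduce
  have w : N * (C * s * (Λ + 1) + δ * s * E ^ 2 + ε / 2 / N) =
      C * τ * (Λ + 1) + δ * τ * E ^ 2 + ε / 2 := by rw [← sN]; field_simp
  have c1 : 0 ≤ C / τ := by positivity
  have c2 : 0 ≤ 640 * DD ^ 2 * (9 * DD ^ 2 * n) * τ * (Λ + 1) := by positivity
  rw [add_div]
  exact ⟨⟨smoothTransition.nonneg _, smoothTransition.le_one _⟩, by linarith,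
    fun h => by linarith [o2 h], by linarith⟩

end Vale.Agent.P223C
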