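import Vale.Agent.P223C.Zm
import Vale.Agent.P223D.Deg
import Vale.Agent.P223Z.Zc0

/-!
# P223C: `ZC k` from `CUBE (k + 1)`
-/

open MeasureTheory Filter Topology Set
open scoped ContDiff
open Vale.Agent.P366M Vale.Agent.P366M.Gr Vale.Agent.P366M.Y.C
open Vale.Agent.P210G Vale.Agent.P210U Vale.Agent.P210E Vale.Agent.P223U
open Vale.Agent.P210H (gn_lin)

noncomputable section

namespace Vale.Agent.P223C

theorem Ph_nonneg (s T y : ℝ) : 0 ≤ Ph s T y := le_max_right _ _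

theorem Ph_zero {s T y : ℝ} (hs : 0 < s) (h : T ≤ y) : Ph s T y = 0 :=
  max_eq_right (sub_nonpos.2 (Real.exp_le_exp.2 (by nlinarith)))

theorem Ph_mass {s T y R W : ℝ} (hs : 0 < s) (hW : 1 ≤ W) (h : y + 1 / s * Real.log W - 1 / s ≤ R) :
    Ph s T R * W ≤ Real.exp 1 * Ph s (T + 1 / s) y := by
  have W0 := one_pos.trans_le hW
  rw [Ph, max_mul_of_nonneg _ _ W0.le, zero_mul]
  refine max_le (le_trans ?_ (mul_le_mul_of_nonneg_left (le_max_left _ _) (Real.exp_pos _).le))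
    (mul_nonneg (Real.exp_pos _).le (Ph_nonneg _ _ _))
  have h1 := mul_le_mul_of_nonneg_left h hs.le
  rw [mul_sub, mul_add, ← mul_assoc, mul_one_div_cancel hs.ne'] at h1
  have h2 : Real.exp (-s * R) * W ≤ Real.exp (1 + -s * y) := by
    rw [← Real.exp_log W0, ← Real.exp_add]; exact Real.exp_le_exp.2 (by linarith)
  rw [mul_sub, ← Real.exp_add, ← Real.exp_add, show 1 + -s * (T + 1 / s) = -s * T by field_simp; ring]
  nlinarith [Real.exp_pos (-s * T)]

variable {n : ℕ} {Z : Type} [Mf0 n Z] {γ : Fld n Z} {l μ ν D : Z → ℝ} {z : Z} {A L B ε p : ℝ}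

/-- the slopes after the zoom -/
theorem zoom_bd (hγ : Met γ) (sl : Smooth l) (sμ : Smooth μ) (sD : Smooth D) (l0 : 0 < l z)
    (lL : l z ≤ L) (A1 : 1 ≤ A) (μ1 : ∀ z, 1 ≤ μ z) (hν : ν = fun z => 1 + (1 + L ^ 2) * (μ z - 1))
    (gμ : gn γ μ z ≤ ε) (e1 : L * (1 + L ^ 2) * ε ≤ 1) (e2 : L * B * ε ≤ 1) (e3 : 8 * B * ε ≤ p)
    (hD : |D z| ≤ B) (b1 : gn γ l z ≤ 1) (b2 : l z * gn γ D z ≤ 1)
    (b3 : gn γ D z ≤ p * (1 + A / l z ^ 2)) :
    gn γ (fun z => l z * (16 * ν z)⁻¹) z ≤ 1 ∧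
      l z * (16 * ν z)⁻¹ * gn γ (fun z => 8 * (μ z * D z)) z ≤ 1 ∧
      gn γ (fun z => 8 * (μ z * D z)) z ≤ 17 * p * (1 + A / 256 / (l z * (16 * ν z)⁻¹) ^ 2) := by
  have m1 := μ1 z
  have ν1 : ∀ z, μ z ≤ ν z := fun z => by rw [hν]; nlinarith [μ1 z, sq_nonneg L]
  have ν0 : ∀ z, 0 < 16 * ν z := fun z => by linarith [μ1 z, ν1 z]
  have n1 := ν1 z
  have n0 := ν0 z
  have sν : Smooth fun z => 16 * ν z :=
    hν ▸ CD.mul cd_const (CD.add cd_const (CD.mul cd_const (CD.sub sμ cd_const)))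
  have g0 := gn_nonneg γ μ z
  have B0 := (abs_nonneg _).trans hD
  have L0 := l0.trans_le lL
  have i0 := inv_pos.2 n0
  have i1 : (16 * ν z)⁻¹ * ν z = 1 / 16 := by
    rw [mul_inv, mul_assoc, inv_mul_cancel₀ (by linarith), mul_one, one_div]
  have i2 : (16 * ν z)⁻¹ ≤ 1 / 16 := by nlinarith
  have gG := gn_lin (u := fun z => 8 * (μ z * D z)) (p := D) (q := μ) (a := 8 * μ z) (b := 8 * D z)
    hγ fun i => by rw [pd_const_mul, pd_mul (sμ.diff z) (sD.diff z)]; ring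
  rw [abs_of_pos (by linarith), abs_mul, abs_of_pos (by norm_num : (0 : ℝ) < 8)] at gG
  have t0 : |D z| * gn γ μ z ≤ B * ε := mul_le_mul hD gμ g0 B0
  have d0 := gn_nonneg γ D z
  refine ⟨?_, ?_, ?_⟩
  · have := gn_lin (u := fun z => l z * (16 * ν z)⁻¹) (p := l) (q := μ) (a := (16 * ν z)⁻¹)
      (b := l z * -((16 * ν z) ^ 2)⁻¹ * (16 * (1 + L ^ 2))) hγ fun i => by
        rw [pd_mul (sl.diff z) (Smooth.diff (CD.inv sν fun z => (ν0 z).ne') z),
          pd_comp (φ := fun t => t⁻¹) (f := fun z => 16 * ν z) (hasDerivAt_inv n0.ne') (sν.diff z),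
          pd_const_mul, hν, pd_const_add, pd_const_mul, pd_sub (sμ.diff z) (dAt_const _), pd_const]
        ring
    rw [abs_of_pos i0, abs_mul, abs_mul, abs_neg, abs_of_pos l0, abs_of_pos (by positivity),
      abs_of_pos (by positivity), ← inv_pow] at this
    have t1 := mul_le_mul i2 b1 (gn_nonneg _ _ _) (by norm_num)
    have t2 := mul_le_mul (mul_le_mul_of_nonneg_right (mul_le_mul lL (pow_le_pow_left₀ i0.le i2 2)
      (by positivity) L0.le) (show 0 ≤ 16 * (1 + L ^ 2) by positivity)) gμ g0 (by positivity)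
    linarith
  · have t1 := mul_le_mul_of_nonneg_left gG (mul_pos l0 i0).le
    have t2 := mul_le_mul (mul_le_mul lL i2 i0.le L0.le) t0 (by positivity) (by positivity)
    have t3 := mul_le_mul (((mul_le_mul_of_nonneg_left n1 i0.le)).trans i1.le) b2 (by positivity)
      (by norm_num)
    linarith
  · have e : A / 256 / (l z * (16 * ν z)⁻¹) ^ 2 = A / l z ^ 2 * ν z ^ 2 := by
      have : ν z ≠ 0 := by linarith
      field_simp; norm_num
    have y0 : 0 < A / l z ^ 2 := by positivity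
    have y1 : 1 ≤ A / l z ^ 2 * L ^ 2 := by
      rw [div_mul_eq_mul_div, le_div_iff₀ (by positivity)]
      nlinarith [pow_le_pow_left₀ l0.le lL 2]
    have y2 : ν z ≤ ν z ^ 2 := by nlinarith
    have y3 : L ^ 2 * (μ z - 1) ≤ ν z := by rw [hν]; nlinarith
    have y4 := mul_le_mul_of_nonneg_left (y3.trans y2) y0.le
    have y5 := mul_le_mul_of_nonneg_left (n1.trans y2) y0.le
    have y6 := mul_le_mul_of_nonneg_right y1 (sub_nonneg.2 m1)
    have p0 : 0 ≤ p := by nlinarith [mul_nonneg (abs_nonneg (D z)) g0]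
    have y7 := mul_le_mul_of_nonneg_left (show μ z * (1 + A / l z ^ 2) ≤
      2 * (1 + A / l z ^ 2 * ν z ^ 2) by nlinarith) p0
    have y8 := mul_le_mul_of_nonneg_left b3 (zero_le_one.trans m1)
    rw [e]
    nlinarith [mul_nonneg p0 (mul_nonneg y0.le (sq_nonneg (ν z)))]

theorem prod_zero {r : ℝ} {ψ : ℝ → ℝ} (hψ : Bmp r ψ) (hr : n * r ^ 2 ≤ 1 / 128)
    {G : Fin n → Z → ℝ} (h : 1 / 128 < nsq G z) : ∏ j, ψ (G j z) = 0 := by
  by_contra a
  have := Finset.sum_le_card_nsmul Finset.univ (fun j => G j z ^ 2) (r ^ 2) fun j _ =>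
    sq_le_sq' (abs_lt.1 (not_le.1 fun b => a (Finset.prod_eq_zero (Finset.mem_univ j)
      (hψ.supp _ b)))).1.le (abs_lt.1 (not_le.1 fun b => a (Finset.prod_eq_zero (Finset.mem_univ j)
        (hψ.supp _ b)))).2.le
  simp only [Finset.card_univ, Fintype.card_fin, nsmul_eq_mul] at this
  exact (h.trans_le this).not_ge hr

/-- **ZC** -/
theorem zc {k : ℕ} (hk : 1 ≤ k) (hC : CUBE (k + 1)) : ZC k := by
  intro s s0 r ψ hψ hr
  obtain ⟨A₀, T, C, C0, hC⟩ := hC s s0 r ψ hψ hr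
  refine ⟨max 1 (256 * A₀), T + 1 / s, C * (Real.exp 1 * 17 ^ (k + 1)), by positivity,
    fun A hA m m1 L L0 => ?_⟩
  obtain ⟨A1, A2⟩ := max_le_iff.1 hA
  have m0 := sub_nonneg.2 m1
  obtain ⟨Γ₀, hS⟩ := zw (n := k + 1) (by omega)
    (Q := |T| + L + 1 / s + A * ((1 + (1 + L ^ 2) * (m - 1)) * L) ^ 2) (by positivity)
  refine ⟨Γ₀, fun Γ hΓ Z _ γ β l p α D W w h V h₁ H δ δ0 => ?_⟩
  have cw := H.smw.cont
  have lp := H.ok.l0
  have hγ := H.ok.met
  obtain ⟨B, B0, hB⟩ := P210Y.bd_cont H.cpt ((H.smp.cont.inv₀ fun z => (H.p0 z).ne').add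
    (continuous_finsetSum Finset.univ fun j _ => (H.smD j).cont.abs))
  have hB : ∀ z, w z ≤ 11 / 8 → 1 ≤ B * p z ∧ ∀ j, |D j z| ≤ B := fun z q => by
    have a1 := (le_abs_self _).trans (hB z q)
    have a2 := inv_pos.2 (H.p0 z)
    have a3 : ∀ j, |D j z| ≤ ∑ j, |D j z| := fun j => Finset.single_le_sum
      (f := fun j => |D j z|) (fun _ _ => abs_nonneg _) (Finset.mem_univ j)
    simp only [Pi.add_apply, Pi.inv_apply] at a1
    refine ⟨?_, fun j => by linarith [a3 j]⟩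
    rw [← div_le_iff₀ (H.p0 z), one_div]
    linarith [a3 0, abs_nonneg (D 0 z)]
  obtain ⟨ε, ε0, he⟩ : ∃ ε > (0 : ℝ), (L * (1 + L ^ 2) + L * B + 8 * B ^ 2) * ε = 1 :=
    ⟨_, by positivity, mul_inv_cancel₀ (by positivity)⟩
  have e1 : 0 ≤ L * (1 + L ^ 2) * ε := by positivity
  have e2 : 0 ≤ L * B * ε := by positivity
  have e3 : 0 ≤ 8 * B ^ 2 * ε := by positivity
  obtain ⟨u, μ, su, sμ, hμ⟩ := hS Γ hΓ ⟨hγ, H.ok.cc, H.smW, H.smw, H.cpt, H.W1, H.lrg, H.smh, H.h0,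
    H.low, H.cls, H.pos, H.big, fun z q => (H.bd z q).1⟩ (1 / s) (by positivity) (1 / s)
    (by positivity) m m1 ε ε0
  have m₁ := met_g hγ su
  have gl := gn_gb_le hγ u
  obtain ⟨ν, hν⟩ : ∃ ν : Z → ℝ, ν = fun z => 1 + (1 + L ^ 2) * (μ z - 1) := ⟨_, rfl⟩
  obtain ⟨G, hG⟩ : ∃ G : Fin (k + 1) → Z → ℝ, G = fun j z => 8 * (μ z * D j z) := ⟨_, rfl⟩
  have ν1 : ∀ z, 1 ≤ ν z := fun z => by rw [hν]; nlinarith [(hμ z).1, sq_nonneg L]
  have ν0 : ∀ z, 0 < 16 * ν z := fun z => by linarith [ν1 z]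
  have sl : Smooth fun z => l z * (16 * ν z)⁻¹ := CD.mul H.ok.sml (CD.inv (hν ▸ CD.mul cd_const
    (CD.add cd_const (CD.mul cd_const (CD.sub sμ cd_const)))) fun z => (ν0 z).ne')
  have l2 : ∀ z, 0 < l z * (16 * ν z)⁻¹ := fun z => mul_pos (lp z) (inv_pos.2 (ν0 z))
  have sG : ∀ j, Smooth (G j) := fun j => hG ▸ CD.mul cd_const (CD.mul sμ (H.smD j))
  have nG : ∀ z, nsq G z = 64 * (μ z ^ 2 * nsq D z) := fun z => by
    simp only [nsq, hG, Finset.mul_sum]
    exact Finset.sum_congr rfl fun _ _ => by ring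
  have n1 : ∀ z, 64 * nsq D z ≤ nsq G z := fun z => by
    rw [nG]
    nlinarith [mul_le_mul_of_nonneg_right (one_le_pow₀ (hμ z).1 (n := 2))
      (show 0 ≤ nsq D z from Finset.sum_nonneg fun _ _ => sq_nonneg _)]
  have n2 : ∀ z, 9 / 8 ≤ w z → 64 ≤ nsq G z := fun z q => by
    rw [nG, (hμ z).2.2.2.1 q]
    linarith [H.far z (by linarith)]
  have k1 : ∀ z ∈ K4 G {z | 0 < α z}, w z ≤ 9 / 8 := fun z q => not_lt.1 fun a => by
    linarith [n2 z a.le, q.2]
  have cK : IsCompact (K4 G {z | 0 < α z}) := by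
    have e : K4 G {z | 0 < α z} = {z | w z ≤ 9 / 8} ∩ ({z | 1 / 2 ≤ α z} ∩ {z | nsq G z ≤ 4}) := by
      ext z
      refine ⟨fun q => ⟨k1 z q, H.sep z (by linarith [k1 z q]) q.1 (by linarith [n1 z, q.2]), q.2⟩,
        fun q => ⟨lt_of_lt_of_le (by norm_num) (show 1 / 2 ≤ α z from q.2.1), q.2.2⟩⟩
    rw [e]
    exact H.cpt.of_isClosed_subset ((isClosed_le cw continuous_const).inter ((isClosed_le
      continuous_const H.smα.cont).inter (isClosed_le (sm_nsq sG).cont continuous_const)))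
      fun z q => le_trans (show w z ≤ 9 / 8 from q.1) (by norm_num)
  obtain ⟨E, sE, eE, cE⟩ := hC (A / 256) (by linarith) Z (gb γ 1 u) (vg γ β u) _ (fun z => 17 * p z)
    G {z | 0 < α z} ⟨⟨m₁, cc_vg hγ H.ok.cc su, sl, l2⟩, CD.mul cd_const H.smp,
      fun z => mul_pos (by norm_num) (H.p0 z), sG, isOpen_lt continuous_const H.smα.cont, cK,
      fun z q => by
        have q' : w z ≤ 11 / 8 := by linarith [k1 z q]
        obtain ⟨-, -, -, b1, b2, b3, b4⟩ := H.bd z q'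
        have lz := (lp z).le
        have b := fun j => zoom_bd m₁ H.ok.sml sμ (H.smD j) (lp z) b1 A1 (fun z => (hμ z).1) hν
          (hμ z).2.2.1 (by linarith) (by linarith) (p := p z) (by
            nlinarith [mul_le_mul_of_nonneg_left (hB z q').1 (show 0 ≤ 8 * B * ε by positivity),
              H.p0 z]) ((hB z q').2 j) ((gl l z).trans b2)
          ((mul_le_mul_of_nonneg_left (gl _ z) lz).trans (b4 j).1) ((gl _ z).trans (b4 j).2)
        refine ⟨(b 0).1, ?_, fun j => by simpa only [hG] using (b j).2⟩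
        rw [gn_of_pd (pd_const_mul _), abs_of_pos (by norm_num)]
        nlinarith [mul_le_mul (mul_le_of_le_one_right lz (inv_le_one_of_one_le₀
          (show 1 ≤ 16 * ν z by linarith [ν1 z]))) (gl p z) (gn_nonneg _ _ _) lz]⟩ δ δ0
  refine ⟨E, sE, fun z q j => ?_, fun z q => ⟨8 * μ z, by linarith [(hμ z).1], fun j => ?_⟩,
    le_trans ?_ (cE.trans (add_le_add_left ?_ _))⟩
  · rw [eE z (.inr (by linarith [n2 z (by linarith)])), hG, ← (hμ z).2.2.2.1 (by linarith),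
      mul_assoc]
  · rw [eE z (q.imp not_lt.2 fun q => by linarith [n1 z]), hG, mul_assoc]
  · have := hγ.locFin
    rw [Cst, Cst, P223D.abs_Jd_vol m₁ hγ cK.measurableSet,
      setIntegral_eq_of_subset_of_forall_sdiff_eq_zero (t := {z | w z ≤ 5 / 4 ∧ 1 / 2 ≤ α z})
        ((isClosed_le cw continuous_const).inter
          (isClosed_le continuous_const H.smα.cont)).measurableSet
        (inter_subset_left (t := K4 G {z | 0 < α z})) fun z q => ?_]
    · exact setIntegral_mono_set (((continuous_finsetProd _ fun j _ => hψ.cont.comp (sE j).cont).mul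
        (P223D.cont_abs_Jd hγ sE)).continuousOn.integrableOn_compact cK) (.of_forall fun z =>
          mul_nonneg (Finset.prod_nonneg fun j _ => hψ.nn _) (abs_nonneg _))
        inter_subset_right.eventuallyLE
    have a : 4 < nsq G z := not_le.1 fun a => q.2 ⟨q.1, lt_of_lt_of_le (by norm_num)
      (show 1 / 2 ≤ α z from q.1.2), a⟩
    rw [prod_zero hψ hr, zero_mul]
    simp only [nsq, eE z (.inr (by linarith))]
    exact lt_trans (by norm_num) a
  have := hγ.locFin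
  have cF : Continuous fun z => Real.exp 1 * 17 ^ (k + 1) *
      (Ph s (T + 1 / s) (V z - A / l z ^ 2) * p z ^ (k + 1)) :=
    continuous_const.mul (((P223Z.cont_Ph _ _).comp (H.cV.sub (continuous_const.div
      (H.ok.sml.cont.pow 2) fun z => (pow_pos (lp z) 2).ne'))).mul (H.smp.cont.pow _))
  have F0 : ∀ z, 0 ≤ Real.exp 1 * 17 ^ (k + 1) *
      (Ph s (T + 1 / s) (V z - A / l z ^ 2) * p z ^ (k + 1)) := fun z =>
    mul_nonneg (by positivity) (mul_nonneg (Ph_nonneg _ _ _) (pow_pos (H.p0 z) _).le)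
  rw [mul_assoc, Ms, Ms, ← integral_const_mul (_ * _), ← integral_indicator cK.measurableSet,
    integral_g hγ su, ← integral_indicator H.cpt.measurableSet]
  refine mul_le_mul_of_nonneg_left (integral_mono_of_nonneg (.of_forall fun z => mul_nonneg
    (indicator_nonneg (fun z _ => mul_nonneg (Ph_nonneg _ _ _) (pow_pos (mul_pos (by norm_num)
      (H.p0 z)) _).le) z) (w_pos hγ u z).le) ((integrable_indicator_iff H.cpt.measurableSet).2
        (cF.continuousOn.integrableOn_compact H.cpt)) (.of_forall fun z => ?_)) C0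
  by_cases q : z ∈ K4 G {z | 0 < α z}
  swap
  · simp only [indicator_of_notMem q, zero_mul]
    exact indicator_nonneg (fun z _ => F0 z) z
  have q' : w z ≤ 11 / 8 := by linarith [k1 z q]
  obtain ⟨-, b1, b2, -⟩ := H.bd z q'
  have lz := lp z
  simp only [indicator_of_mem q, indicator_of_mem (s := {z | w z ≤ 11 / 8}) q']
  rw [show A / 256 / (l z * (16 * ν z)⁻¹) ^ 2 = A * (ν z * (l z)⁻¹) ^ 2 by
    have := ν1 z
    field_simp; norm_num]
  rcases (hμ z).2.2.2.2 (k1 z q) with a | a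
  · have : (ν z * (l z)⁻¹) ^ 2 ≤ ((1 + (1 + L ^ 2) * (m - 1)) * L) ^ 2 := by
      have := ν1 z
      refine pow_le_pow_left₀ (by positivity) (mul_le_mul ?_ (inv_le_of_inv_le₀ L0 b2)
        (by positivity) (by positivity)) 2
      rw [hν]
      nlinarith [(hμ z).2.1, sq_nonneg L]
    rw [Ph_zero s0 (by nlinarith [le_abs_self T]), zero_mul, zero_mul]
    exact F0 z
  have e : ν z = 1 := by rw [hν]; simp only [a.1, sub_self, mul_zero, add_zero]
  have := mul_le_mul_of_nonneg_right (Ph_mass (T := T) (y := V z - A / l z ^ 2)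
    (R := Rv (gb γ 1 u) (vg γ β u) z - A * (ν z * (l z)⁻¹) ^ 2) s0 (GbH.one_le_ww hγ 1 u z) (by
      rw [e, one_mul, inv_pow, ← div_eq_mul_inv]
      linarith [show _ + 1 / s * Real.log _ - _ ≤ _ from a.2]))
    (pow_pos (mul_pos (show (0 : ℝ) < 17 by norm_num) (H.p0 z)) (k + 1)).le
  rw [mul_pow 17] at this ⊢
  linarith

/-- **ZC** for all `k` -/
theorem zc_all {k : ℕ} (hC : 1 ≤ k → CUBE (k + 1)) : ZC k := by
  rcases Nat.eq_zero_or_pos k with rfl | h
  · exact P223Z.zc_zero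
  · exact zc h (hC h)

end Vale.Agent.P223C
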