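import Vale.Agent.P223C.Raw
import Vale.Agent.P210H.Zl

/-!
# P223C: the shield move and the zoom, for an arbitrary lower bound `V`, with the mass clause
-/

open Filter Topology Set
open scoped ContDiff
open Vale.Agent.P366M Vale.Agent.P366M.Gr Vale.Agent.P366M.Y.C
open Vale.Agent.P210G Vale.Agent.P210H Vale.Agent.P210E
open Vale.Agent.P366H (DD DD_ge)

noncomputable section

namespace Vale.Agent.P223C

/-- the Hardy weight `W`, the potential `w` and the shield `h` on the hypersurface, and the state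
`(γ, β)` with the lower bound `V` -/
structure Zw {n : ℕ} {Z : Type} [Mf0 n Z] (γ : Fld n Z) (β : Fin n → Z → ℝ) (V W w h : Z → ℝ)
    (Γ h₁ : ℝ) : Prop where
  met : Met γ
  cc : CC ∞ β
  smW : Smooth W
  smw : Smooth w
  cpt : IsCompact {z | w z ≤ 11 / 8}
  W1 : ∀ z, 1 ≤ W z
  lrg : ∀ z, 4 * w z ≤ W z
  smh : ∀ z, w z < 1 → CAt ∞ h z
  h0 : ∀ z, w z < 1 → 0 ≤ h z
  low : ∀ z, W z ≤ 2 → h z = 0
  cls : ∀ c, ∃ b < 1, ∀ z, w z < 1 → h z ≤ c → w z ≤ b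
  pos : ∀ z, w z < 1 → -1 ≤ (gn γ W z / W z) ^ 2 / 2 + h z ^ 2 - 2 * gn γ h z
  big : ∀ z, w z < 1 → h₁ ≤ h z → gn γ h z ≤ 1 / 64 * h z ^ 2
  bd : ∀ z, w z ≤ 11 / 8 → V z + Γ * ((W z - 1) / W z) + (gn γ W z / W z) ^ 2 / 2 ≤ Rv γ β z

theorem lw_nonneg {n : ℕ} {Z : Type} [Mf0 n Z] {γ : Fld n Z} (hγ : Met γ) (u : Z → ℝ) (z : Z) :
    0 ≤ lw γ u z := Real.log_nonneg (GbH.one_le_ww hγ 1 u z)

/-- **the shield move**: the curvature is large, or the height is at least `T` and the curvature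
pays the new volume -/
theorem shieldM {n : ℕ} (hn : 2 ≤ n) {Q : ℝ} (Q0 : 0 ≤ Q) : ∃ Γ₀ : ℝ, ∀ Γ ≥ Γ₀,
    ∀ {Z : Type} [Mf0 n Z] {γ : Fld n Z} {β : Fin n → Z → ℝ} {V W w h : Z → ℝ} {h₁ : ℝ},
      Zw γ β V W w h Γ h₁ → ∀ κ ≥ (0 : ℝ), ∀ η > (0 : ℝ), ∀ T > (0 : ℝ), ∃ u, Smooth u ∧
        ∀ z, (9 / 8 ≤ w z → u z ≤ -T) ∧ (w z ≤ 9 / 8 →
          V z + Q - η ≤ Rv (gb γ 1 u) (vg γ β u) z ∨
            T ≤ u z ∧ V z + κ * lw γ u z - η ≤ Rv (gb γ 1 u) (vg γ β u) z) := by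
  obtain ⟨Γ₀, Γ0, Γ1, hw⟩ := wall 0 (Q + 1)
  refine ⟨Γ₀, fun Γ hΓ Z _ γ β V W w h h₁ H κ κ0 η η0 T T0 => ?_⟩
  obtain ⟨M₁, hw⟩ := hw h₁
  have cw := H.smw.cont
  have cK : IsCompact {z | w z ≤ 9 / 8} := H.cpt.of_isClosed_subset
    (isClosed_le cw continuous_const) fun z (k : w z ≤ 9 / 8) => show w z ≤ 11 / 8 by linarith
  obtain ⟨A₀, A0, hA⟩ := raw hn H.met H.cc (isOpen_lt continuous_const cw) isOpen_empty
    (isClosed_le continuous_const cw) isClosed_empty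
    (fun z (k : 9 / 8 ≤ w z) => show 1 < w z by linarith) subset_rfl cK
    fun z (k : ¬w z ≤ 9 / 8) => Or.inl (le_of_lt (not_le.1 k))
  obtain ⟨F, sF, hF⟩ := hw (κ := fun _ => 1) zero_le_one ⟨H.met, H.smW, H.smw, H.smh, cd_const,
    H.W1, H.h0, H.low, fun z => by linarith [H.lrg z, H.W1 z], H.cls, H.pos,
    fun z p q => by nlinarith [H.big z p q, sq_nonneg (h z)], fun _ => le_rfl,
    fun z => (gn_zero fun i => pd_const _ i z).le, fun _ => Or.inl (.of_forall fun _ => rfl)⟩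
    (max A₀ M₁) (le_max_right _ _)
  have A1 := A0.trans_le (le_max_left A₀ M₁)
  obtain ⟨G, -, hG⟩ := P210Y.bd_cont cK (H.met.cont_gn sF.one)
  obtain ⟨α, α0, αT, u, b, d, R⟩ := hA _ (le_max_left _ _) F sF (fun z => (hF z).1)
    (fun z k => (hF z).2.1 (le_of_lt k)) (fun _ k => k.elim) (κ / 4 + G ^ 2 / η)
    (min 1 (η / (2 * max A₀ M₁))) (by positivity) (min_le_left _ _) T T0
  have hb : 2 * (max A₀ M₁ * min 1 (η / (2 * max A₀ M₁))) ≤ η := by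
    rw [← mul_assoc]
    exact (le_div_iff₀' (by positivity)).1 (min_le_right _ _)
  refine ⟨u, R.smw, fun z => ⟨R.lo z, fun k => ?_⟩⟩
  have q0 : 0 ≤ (W z - 1) / W z := div_nonneg (by linarith [H.W1 z]) (by linarith [H.W1 z])
  have b1 := H.bd z (by linarith)
  have b2 := mul_le_mul_of_nonneg_right hΓ q0
  have b3 := sq_nonneg (gn γ W z / W z)
  have b4 := (hF z).2.2.2.2
  have b5 := mul_nonneg κ0 (lw_nonneg H.met u z)
  have b6 := mul_nonneg Γ0.le q0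
  have m := R.mass H.met H.cc sF α0.le k η0 (γ := κ / 4) (by positivity) (add_le_add_right
    (div_le_div_of_nonneg_right (sq_le_sq' (abs_le.1 (hG z k)).1 (abs_le.1 (hG z k)).2) η0.le) _)
    (hF z).1 hb
  rw [sub_le_iff_le_add, min_le_iff] at m
  rcases m with m | m
  swap
  · exact .inl (by linarith)
  rcases le_total T (u z) with q | q
  · exact .inr ⟨q, by linarith⟩
  rcases le_or_gt 2 (W z) with s | s
  · have : 1 / 2 ≤ (W z - 1) / W z := by rw [le_div_iff₀ (by linarith)]; linarith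
    exact .inl (by nlinarith)
  · exact .inl (by linarith [R.fin H.met H.cc sF α0.le k T0.le αT (hF z).1 hb (Or.inr
      ⟨q, not_lt.1 fun t => absurd ((hF z).2.2.2.1 t) (not_le.2 s)⟩)])

/-- **ZW**: shield move and zoom -/
theorem zw {n : ℕ} (hn : 2 ≤ n) {Q : ℝ} (Q0 : 0 ≤ Q) : ∃ Γ₀ : ℝ, ∀ Γ ≥ Γ₀,
    ∀ {Z : Type} [Mf0 n Z] {γ : Fld n Z} {β : Fin n → Z → ℝ} {V W w h : Z → ℝ} {h₁ : ℝ},
      Zw γ β V W w h Γ h₁ → ∀ κ ≥ (0 : ℝ), ∀ η > (0 : ℝ), ∀ m ≥ (1 : ℝ), ∀ δ > (0 : ℝ), ∃ u μ,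
        Smooth u ∧ Smooth μ ∧ ∀ z, 1 ≤ μ z ∧ μ z ≤ m ∧ gn (gb γ 1 u) μ z ≤ δ ∧
          (9 / 8 ≤ w z → μ z = m) ∧ (w z ≤ 9 / 8 → V z + Q - η ≤ Rv (gb γ 1 u) (vg γ β u) z ∨
            μ z = 1 ∧ V z + κ * lw γ u z - η ≤ Rv (gb γ 1 u) (vg γ β u) z) := by
  obtain ⟨Γ₀, hS⟩ := shieldM hn Q0
  refine ⟨Γ₀, fun Γ hΓ Z _ γ β V W w h h₁ H κ κ0 η η0 m m1 δ δ0 => ?_⟩
  have hD := DD_ge
  obtain ⟨u, su, hu⟩ := hS Γ hΓ H κ κ0 η η0 (m * DD / δ) (by positivity)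
  obtain ⟨μ, sμ, hμ⟩ := zoom su (gn_gb_self H.met u) (δ := δ) m1 (by positivity)
    (mul_div_cancel₀ _ δ0.ne').ge
  exact ⟨u, μ, su, sμ, fun z => ⟨(hμ z).1, (hμ z).2.1, (hμ z).2.2.2.2,
    fun k => (hμ z).2.2.2.1 ((hu z).1 k),
    fun k => ((hu z).2 k).imp_right fun q => ⟨(hμ z).2.2.1 q.1, q.2⟩⟩⟩

end Vale.Agent.P223C
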